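import Vale.Agent.P106.TV.MStepG

/-!
# P106 / TV : the M-step with an arbitrary relation (helper459)

As `MStepG`, but the chain of five sub-couplings `a, a₁ (same E), a₂ (same W), a₃ (same E), a₄ (same W), b (same E)` is
only required to imply a relation `Rel d θ θ' x x' a b` (for instance: the state of `b` is the image of the state of `a` by
an affine map; the phase where the own slope is a digit of the ray, commutators).
-/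

set_option autoImplicit false

namespace Vale.Agent.P106.TV

open Finset Vale.Agent.P127 Vale.Agent.P127.Stk Vale.Agent.P127.U.Pin Vale.Agent.P127.TV

variable {Ω : Type} [Fintype Ω] {ι : Type*} {S T U V F' G Z X : Type*}

/-! ### the M-step -/

section main

variable (P : Law Ω) (D : Ω → U) (Θ : Ω → V) (W : Ω → S) (E : Ω → Z) (e : U → S → X)
    (Rel : U → V → V → X → X → Ω → Ω → Prop)

/-- the hypothesis on the chain -/
def GeoR : Prop := ∀ a a₁ a₂ a₃ a₄ b, 0 < P.w a → 0 < P.w a₁ → 0 < P.w a₂ → 0 < P.w a₃ → 0 < P.w a₄ →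
    0 < P.w b → D a₁ = D a → D a₂ = D a → D a₃ = D a → D a₄ = D a → D b = D a →
    Θ a₁ = Θ a → Θ a₃ = Θ a₂ → Θ a₄ = Θ a → Θ b = Θ a →
    E a = E a₁ → W a₁ = W a₂ → E a₂ = E a₃ → W a₃ = W a₄ → E a₄ = E b →
    Rel (D a) (Θ a) (Θ a₂) (e (D a) (W a₁)) (e (D a) (W a₄)) a b

variable {κ₂ κ₃ : Type} [Fintype κ₂] [DecidableEq κ₂] [Fintype κ₃] [DecidableEq κ₃]

/-- the pointwise form: average weight `avG`, average error `er` -/
theorem mstepR_pt (geo : GeoR P D Θ W E e Rel)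
    (A : Finset (κ₂ × κ₃ × κ₃)) (hA : ∀ p ∈ A, p.2.1 ≠ p.2.2)
    (χ : U → V → (κ₂ → V) → (κ₃ → X) → ℝ) (hχ0 : ∀ d θ θs xs, 0 ≤ χ d θ θs xs)
    (hχ1 : ∀ d θ θs xs, χ d θ θs xs ≤ 1)
    (fine : U → V → Ω → F') (coarse : U → V → Ω → G) (Φ N : ℝ) (hN : 0 ≤ N)
    (hsat : ∀ d θ θs xs, 0 < χ d θ θs xs → ∀ (Q : Law Ω) (ε : κ₂ × κ₃ × κ₃ → ℝ),
      (∀ ω, 0 < Q.w ω → 0 < P.w ω ∧ D ω = d ∧ Θ ω = θ) → (∀ p, 0 ≤ ε p) →
      (∀ p ∈ A, SubC Q Q (Rel d θ (θs p.1) (xs p.2.1) (xs p.2.2)) (ε p)) →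
      Φ - N * ∑ p ∈ A, ε p ≤ hc Q (fine d θ) (coarse d θ)) :
    ∃ er : Ω → ℝ, (∀ ω, 0 ≤ er ω) ∧
      P.ex er ≤ A.card * (8 * Real.sqrt (mi P (fun ω => e (D ω) (W ω)) E (fun ω => (D ω, Θ ω))) +
        64 * Real.sqrt (mi P Θ W D)) ∧
      ∀ ω, 0 < P.w ω →
        avG P D Θ W e χ ω * Φ - N * er ω ≤ avG P D Θ W e χ ω *
        hc (P.cond (fun ω => (D ω, Θ ω)) (D ω, Θ ω)) (fine (D ω) (Θ ω)) (coarse (D ω) (Θ ω)) := by
  classical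
  -- abbreviations
  let Dt : Ω → U × V := fun ω => (D ω, Θ ω)
  let J : Ω → ℝ := fun ω => il (P.cond Dt (Dt ω)) (fun ω' => e (D ω) (W ω')) E
  let K : Ω → ℝ := fun ω => dl (P.cond Dt (Dt ω)) W (P.cond D (D ω)) W
  have hJ0 : ∀ ω, 0 ≤ J ω := fun ω => il_nonneg _ _ _
  have hK0 : ∀ ω, 0 ≤ K ω := fun ω => dl_nonneg _ _ _ _
  have hDt : ∀ ω, 0 < P.w ω → ∀ ω', 0 < (P.cond Dt (Dt ω)).w ω' →
      D ω' = D ω ∧ Θ ω' = Θ ω ∧ 0 < P.w ω' := fun ω hω ω' h' => by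
    have h1 := cond_supp P Dt (P.pr_pos Dt hω) h'
    exact ⟨(Prod.mk.inj h1.1).1, (Prod.mk.inj h1.1).2, h1.2⟩
  have hJ : P.ex J ≤ 4 * Real.sqrt (mi P (fun ω => e (D ω) (W ω)) E (fun ω => (D ω, Θ ω))) := by
    refine le_trans (le_of_eq ?_) (pin_il P (fun ω => e (D ω) (W ω)) E Dt)
    refine P.ex_congr fun ω hω => ?_
    simp only [J]
    rw [il_eq_ex, il_eq_ex]
    refine Law.ex_congr _ fun ω' h' => ?_
    have hD' := (hDt ω hω ω' h').1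
    rw [hD']
    refine dl_pr_congr _ _ _ _ _ _ _ _ (fun y => ?_) fun _ => rfl
    have q1 : 0 < (P.cond Dt (Dt ω)).pr (fun a => e (D ω) (W a)) (e (D ω) (W ω')) :=
      Law.pr_pos _ (fun a => e (D ω) (W a)) h'
    have q2 : 0 < (P.cond Dt (Dt ω)).pr (fun a => e (D a) (W a)) (e (D ω) (W ω')) := by
      have := Law.pr_pos _ (fun a => e (D a) (W a)) h'
      rwa [hD'] at this
    rw [Law.cond_pr _ _ _ q1, Law.cond_pr _ _ _ q2]
    congr 1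
    · refine pr_congr _ (fun a ha => ?_) _
      rw [(hDt ω hω a ha).1]
    · refine pr_congr _ (fun a ha => ?_) _
      rw [(hDt ω hω a ha).1]
  have hK : P.ex K ≤ 4 * Real.sqrt (mi P Θ W D) := pin_dl P Θ W D
  have hJ2 : P.ex (fun ω => (P.cond D (D ω)).ex J) = P.ex J := ex_cond P D J
  have hK2 : P.ex (fun ω => (P.cond D (D ω)).ex K) = P.ex K := ex_cond P D K
  have hB0 : ∀ ω, 0 ≤ J ω + (P.cond D (D ω)).ex J + 8 * K ω + 8 * (P.cond D (D ω)).ex K := by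
    intro ω
    have a1 := hJ0 ω
    have a2 := hK0 ω
    have a3 : 0 ≤ (P.cond D (D ω)).ex J := Law.ex_nonneg _ fun ω' _ => hJ0 ω'
    have a4 : 0 ≤ (P.cond D (D ω)).ex K := Law.ex_nonneg _ fun ω' _ => hK0 ω'
    positivity
  refine ⟨fun ω => A.card *
    (J ω + (P.cond D (D ω)).ex J + 8 * K ω + 8 * (P.cond D (D ω)).ex K),
    fun ω => mul_nonneg (Nat.cast_nonneg _) (hB0 ω), ?_, ?_⟩
  · rw [P.ex_const_mul]
    refine mul_le_mul_of_nonneg_left ?_ (Nat.cast_nonneg _)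
    rw [P.ex_add, P.ex_add, P.ex_add, P.ex_const_mul, P.ex_const_mul, hJ2, hK2]
    linarith
  -- the pointwise inequality
  intro ω hω
  set R := P.cond D (D ω) with hR
  set Q := P.cond Dt (Dt ω) with hQ
  have hRs : ∀ ω', 0 < R.w ω' → D ω' = D ω ∧ 0 < P.w ω' := fun ω' h' =>
    cond_supp P D (P.pr_pos D hω) h'
  have hQs : ∀ ω', 0 < Q.w ω' → D ω' = D ω ∧ Θ ω' = Θ ω ∧ 0 < P.w ω' := hDt ω hω
  set H := hc Q (fine (D ω) (Θ ω)) (coarse (D ω) (Θ ω)) with hH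
  -- the error of one translation
  let er : Ω → Ω → Ω → ℝ := fun ω₂ ω₄ ω₅ =>
    erC Q (P.cond Dt (Dt ω₂)) W E (fun a => e (D ω) (W a)) (e (D ω) (W ω₄)) (e (D ω) (W ω₅))
  have her0 : ∀ ω₂ ω₄ ω₅, 0 ≤ er ω₂ ω₄ ω₅ := fun _ _ _ => erC_nonneg _ _ _ _ _ _ _
  have htr : ∀ ω₂ ω₄ ω₅, 0 < R.w ω₂ →
      SubC Q Q (Rel (D ω) (Θ ω) (Θ ω₂) (e (D ω) (W ω₄)) (e (D ω) (W ω₅))) (er ω₂ ω₄ ω₅) := by
    intro ω₂ ω₄ ω₅ hω₂
    obtain ⟨hD2, hP2⟩ := hRs ω₂ hω₂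
    have hQ1s := hDt ω₂ hP2
    refine (chain5 Q (P.cond Dt (Dt ω₂)) W E (fun a => e (D ω) (W a)) (e (D ω) (W ω₄))
      (e (D ω) (W ω₅))).mono ?_ le_rfl
    rintro a b ⟨a₁, a₂, a₃, a₄, p0, p1, p2, p3, p4, p5, q1, q2, q3, q4, q5, q6, q7⟩
    obtain ⟨u0, v0, w0⟩ := hQs a p0
    obtain ⟨u1, v1, w1⟩ := hQs a₁ p1
    obtain ⟨u2, v2, w2⟩ := hQ1s a₂ p2
    obtain ⟨u3, v3, w3⟩ := hQ1s a₃ p3
    obtain ⟨u4, v4, w4⟩ := hQs a₄ p4
    obtain ⟨u5, v5, w5⟩ := hQs b p5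
    have h := geo a a₁ a₂ a₃ a₄ b w0 w1 w2 w3 w4 w5 (u1.trans u0.symm)
      ((u2.trans hD2).trans u0.symm) ((u3.trans hD2).trans u0.symm) (u4.trans u0.symm)
      (u5.trans u0.symm) (v1.trans v0.symm) (v3.trans v2.symm) (v4.trans v0.symm)
      (v5.trans v0.symm) q1 q2 q3 q4 q5
    rw [u0, v0, v2] at h
    rw [q6, q7] at h
    exact h
  have hpt : ∀ (z : κ₂ → Ω) (y : κ₃ → Ω), 0 < (cop R κ₂).w z →
      χ (D ω) (Θ ω) (fun i => Θ (z i)) (fun j => e (D ω) (W (y j))) * Φ -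
        N * ∑ p ∈ A, er (z p.1) (y p.2.1) (y p.2.2) ≤
      χ (D ω) (Θ ω) (fun i => Θ (z i)) (fun j => e (D ω) (W (y j))) * H := by
    intro z y hz
    set x := χ (D ω) (Θ ω) (fun i => Θ (z i)) (fun j => e (D ω) (W (y j))) with hx
    have hx0 : 0 ≤ x := hχ0 _ _ _ _
    have hx1 : x ≤ 1 := hχ1 _ _ _ _
    have hS0 : 0 ≤ ∑ p ∈ A, er (z p.1) (y p.2.1) (y p.2.2) :=
      Finset.sum_nonneg fun p _ => her0 _ _ _
    have hE0 : 0 ≤ N * ∑ p ∈ A, er (z p.1) (y p.2.1) (y p.2.2) := mul_nonneg hN hS0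
    rcases hx0.eq_or_lt with h0 | h0
    · rw [← h0]
      linarith
    · have h8 := hsat _ _ _ _ h0 Q (fun p => er (z p.1) (y p.2.1) (y p.2.2))
        (fun ω' h' => ⟨(hQs ω' h').2.2, (hQs ω' h').1, (hQs ω' h').2.1⟩)
        (fun p => her0 _ _ _) (fun p _ => htr (z p.1) (y p.2.1) (y p.2.2) (cop_supp hz p.1))
      have h9 := mul_le_mul_of_nonneg_left h8 hx0
      have h10 : x * (N * ∑ p ∈ A, er (z p.1) (y p.2.1) (y p.2.2)) ≤
          N * ∑ p ∈ A, er (z p.1) (y p.2.1) (y p.2.2) := mul_le_of_le_one_left hE0 hx1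
      rw [mul_sub] at h9
      linarith
  -- average over the copies
  let av : ((κ₂ → Ω) → (κ₃ → Ω) → ℝ) → ℝ := fun f =>
    (cop R κ₂).ex (fun z => (cop R κ₃).ex (fun y => f z y))
  have av_mono : ∀ f f' : (κ₂ → Ω) → (κ₃ → Ω) → ℝ, (∀ z y, 0 < (cop R κ₂).w z →
      f z y ≤ f' z y) → av f ≤ av f' := fun f f' hff =>
    Law.ex_mono _ fun z hz => Law.ex_mono _ fun y _ => hff z y hz
  let X4 : (κ₂ → Ω) → (κ₃ → Ω) → ℝ := fun z y =>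
    χ (D ω) (Θ ω) (fun i => Θ (z i)) (fun j => e (D ω) (W (y j)))
  have e1 : av (fun z y => X4 z y * Φ - N * ∑ p ∈ A, er (z p.1) (y p.2.1) (y p.2.2)) ≤
      av (fun z y => X4 z y * H) := av_mono _ _ hpt
  have e2 : av (fun z y => X4 z y * H) = av X4 * H := by
    simp only [av]
    simp only [mul_comm _ H, Law.ex_const_mul]
  have e5 : ∀ p ∈ A, av (fun z y => er (z p.1) (y p.2.1) (y p.2.2)) =
      R.ex (fun ω₂ => R.ex (fun ω₄ => R.ex (fun ω₅ => er ω₂ ω₄ ω₅))) := by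
    intro p hp
    simp only [av]
    have h1 : ∀ z : κ₂ → Ω, (cop R κ₃).ex (fun y => er (z p.1) (y p.2.1) (y p.2.2)) =
        R.ex (fun ω₄ => R.ex (fun ω₅ => er (z p.1) ω₄ ω₅)) := fun z =>
      cop_ex2 R (hA p hp) (fun a b => er (z p.1) a b)
    simp only [h1]
    exact cop_ex1 R p.1 (fun ω₂ => R.ex (fun ω₄ => R.ex (fun ω₅ => er ω₂ ω₄ ω₅)))
  have e3 : av (fun z y => X4 z y * Φ - N * ∑ p ∈ A, er (z p.1) (y p.2.1) (y p.2.2)) =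
      av X4 * Φ - N * (A.card * R.ex (fun ω₂ => R.ex (fun ω₄ => R.ex (fun ω₅ =>
        er ω₂ ω₄ ω₅)))) := by
    have h1 : av (fun z y => ∑ p ∈ A, er (z p.1) (y p.2.1) (y p.2.2)) =
        ∑ p ∈ A, av (fun z y => er (z p.1) (y p.2.1) (y p.2.2)) := by
      have hs : ∀ (L : Law (κ₃ → Ω)) (f : κ₂ × κ₃ × κ₃ → (κ₃ → Ω) → ℝ),
          L.ex (fun y => ∑ p ∈ A, f p y) = ∑ p ∈ A, L.ex (f p) := by
        intro L f
        unfold Law.ex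
        rw [Finset.sum_comm]
        exact Finset.sum_congr rfl fun y _ => by rw [Finset.mul_sum]
      have hs' : ∀ (L : Law (κ₂ → Ω)) (f : κ₂ × κ₃ × κ₃ → (κ₂ → Ω) → ℝ),
          L.ex (fun y => ∑ p ∈ A, f p y) = ∑ p ∈ A, L.ex (f p) := by
        intro L f
        unfold Law.ex
        rw [Finset.sum_comm]
        exact Finset.sum_congr rfl fun y _ => by rw [Finset.mul_sum]
      simp only [av]
      rw [← hs']
      refine Law.ex_congr _ fun z _ => ?_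
      exact hs _ (fun p y => er (z p.1) (y p.2.1) (y p.2.2))
    have h2 : av (fun z y => X4 z y * Φ - N * ∑ p ∈ A, er (z p.1) (y p.2.1) (y p.2.2)) =
        av X4 * Φ - N * av (fun z y => ∑ p ∈ A, er (z p.1) (y p.2.1) (y p.2.2)) := by
      simp only [av, Law.ex_sub, Law.ex_const_mul]
      congr 1
      simp only [mul_comm _ Φ, Law.ex_const_mul]
    rw [h2, h1, Finset.sum_congr rfl fun p hp => e5 p hp, Finset.sum_const, nsmul_eq_mul]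
  have e4 : R.ex (fun ω₂ => R.ex (fun ω₄ => R.ex (fun ω₅ => er ω₂ ω₄ ω₅))) ≤
      J ω + R.ex J + 8 * K ω + 8 * R.ex K := by
    have : R.ex (fun ω₂ => R.ex (fun ω₄ => R.ex (fun ω₅ => er ω₂ ω₄ ω₅))) ≤
        R.ex (fun ω₂ => J ω + J ω₂ + 8 * K ω + 8 * K ω₂) := by
      refine R.ex_mono fun ω₂ h2 => ?_
      obtain ⟨hD2, hP2⟩ := hRs ω₂ h2
      have h3 := chain5_err Q (P.cond Dt (Dt ω₂)) R W E (e (D ω))
      have h4 : J ω₂ = il (P.cond Dt (Dt ω₂)) (fun a => e (D ω) (W a)) E := by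
        simp only [J]
        rw [hD2]
      have h5 : K ω₂ = dl (P.cond Dt (Dt ω₂)) W R W := by
        simp only [K]
        rw [hD2]
      rw [h4, h5]
      exact h3
    simp only [R.ex_add, R.ex_const_mul, R.ex_const] at this
    exact this
  rw [e3, e2] at e1
  have e6 : N * (A.card * R.ex (fun ω₂ => R.ex (fun ω₄ => R.ex (fun ω₅ => er ω₂ ω₄ ω₅)))) ≤
      N * (A.card * (J ω + R.ex J + 8 * K ω + 8 * R.ex K)) :=
    mul_le_mul_of_nonneg_left (mul_le_mul_of_nonneg_left e4 (Nat.cast_nonneg _)) hN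
  have e7 : av X4 * Φ - N * (A.card * (J ω + R.ex J + 8 * K ω + 8 * R.ex K)) ≤ av X4 * H := by
    linarith
  exact e7

/-- **THE M-STEP with a general displacement**, averaged form -/
theorem mstepR (geo : GeoR P D Θ W E e Rel)
    (A : Finset (κ₂ × κ₃ × κ₃)) (hA : ∀ p ∈ A, p.2.1 ≠ p.2.2)
    (χ : U → V → (κ₂ → V) → (κ₃ → X) → ℝ) (hχ0 : ∀ d θ θs xs, 0 ≤ χ d θ θs xs)
    (hχ1 : ∀ d θ θs xs, χ d θ θs xs ≤ 1)
    (fine : U → V → Ω → F') (coarse : U → V → Ω → G) (Φ N : ℝ) (hN : 0 ≤ N)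
    (hsat : ∀ d θ θs xs, 0 < χ d θ θs xs → ∀ (Q : Law Ω) (ε : κ₂ × κ₃ × κ₃ → ℝ),
      (∀ ω, 0 < Q.w ω → 0 < P.w ω ∧ D ω = d ∧ Θ ω = θ) → (∀ p, 0 ≤ ε p) →
      (∀ p ∈ A, SubC Q Q (Rel d θ (θs p.1) (xs p.2.1) (xs p.2.2)) (ε p)) →
      Φ - N * ∑ p ∈ A, ε p ≤ hc Q (fine d θ) (coarse d θ)) :
    P.ex (avG P D Θ W e χ) * Φ - N * (A.card *
      (8 * Real.sqrt (mi P (fun ω => e (D ω) (W ω)) E (fun ω => (D ω, Θ ω))) +
        64 * Real.sqrt (mi P Θ W D))) ≤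
    hc P (fun ω => fine (D ω) (Θ ω) ω)
      (fun ω => (coarse (D ω) (Θ ω) ω, (D ω, Θ ω))) := by
  obtain ⟨er, _, her, hpt⟩ := mstepR_pt P D Θ W E e Rel geo A hA χ hχ0 hχ1 fine coarse Φ N
    hN hsat
  have hcg : ∀ ω, 0 < P.w ω → hc (P.cond (fun ω => (D ω, Θ ω)) (D ω, Θ ω))
      (fun ω => fine (D ω) (Θ ω) ω) (fun ω => coarse (D ω) (Θ ω) ω) =
      hc (P.cond (fun ω => (D ω, Θ ω)) (D ω, Θ ω)) (fine (D ω) (Θ ω)) (coarse (D ω) (Θ ω)) := by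
    intro ω hω
    have hs : ∀ ω', 0 < (P.cond (fun ω => (D ω, Θ ω)) (D ω, Θ ω)).w ω' → D ω' = D ω ∧ Θ ω' = Θ ω := by
      intro ω' h'
      have h1 := (cond_supp P (fun ω => (D ω, Θ ω)) (P.pr_pos _ hω) h').1
      exact ⟨(Prod.mk.inj h1).1, (Prod.mk.inj h1).2⟩
    refine hc_congr_supp (fun ω' h' => ?_) fun ω' h' => ?_
    · rw [(hs ω' h').1, (hs ω' h').2]
    · rw [(hs ω' h').1, (hs ω' h').2]
  rw [hc_cond_ex P _ _ (fun ω => (D ω, Θ ω))]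
  have h1 := P.ex_mono (f := fun ω => avG P D Θ W e χ ω * Φ - N * er ω)
    (g := fun ω => hc (P.cond (fun ω => (D ω, Θ ω)) (D ω, Θ ω))
      (fun ω => fine (D ω) (Θ ω) ω) (fun ω => coarse (D ω) (Θ ω) ω)) (by
    intro ω hω
    rw [hcg ω hω]
    refine (hpt ω hω).trans ?_
    exact mul_le_of_le_one_left (hc_nonneg _ _ _) (avG_mem P D Θ W e χ hχ0 hχ1 ω).2)
  refine le_trans ?_ h1
  rw [P.ex_sub, P.ex_const_mul]
  have h2 := mul_le_mul_of_nonneg_left her hN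
  have e8 : P.ex (fun ω => avG P D Θ W e χ ω * Φ) = P.ex (avG P D Θ W e χ) * Φ := by
    rw [mul_comm _ Φ, ← P.ex_const_mul]
    exact P.ex_congr fun ω _ => by ring
  rw [e8]
  linarith

/-- **THE M-STEP**, robust form: if the average weight is at least `ρ` outside a set of probability `η` -/
theorem mstepR_rob (geo : GeoR P D Θ W E e Rel)
    (A : Finset (κ₂ × κ₃ × κ₃)) (hA : ∀ p ∈ A, p.2.1 ≠ p.2.2)
    (χ : U → V → (κ₂ → V) → (κ₃ → X) → ℝ) (hχ0 : ∀ d θ θs xs, 0 ≤ χ d θ θs xs)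
    (hχ1 : ∀ d θ θs xs, χ d θ θs xs ≤ 1)
    (fine : U → V → Ω → F') (coarse : U → V → Ω → G) (Φ N : ℝ) (hN : 0 ≤ N)
    (hΦ : 0 ≤ Φ)
    (hsat : ∀ d θ θs xs, 0 < χ d θ θs xs → ∀ (Q : Law Ω) (ε : κ₂ × κ₃ × κ₃ → ℝ),
      (∀ ω, 0 < Q.w ω → 0 < P.w ω ∧ D ω = d ∧ Θ ω = θ) → (∀ p, 0 ≤ ε p) →
      (∀ p ∈ A, SubC Q Q (Rel d θ (θs p.1) (xs p.2.1) (xs p.2.2)) (ε p)) →
      Φ - N * ∑ p ∈ A, ε p ≤ hc Q (fine d θ) (coarse d θ))
    {ρ : ℝ} (hρ : 0 < ρ) (B : Ω → ℝ) (hB0 : ∀ ω, 0 ≤ B ω)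
    (hB : ∀ ω, 0 < P.w ω → avG P D Θ W e χ ω < ρ → 1 ≤ B ω) :
    (1 - P.ex B) * Φ - N / ρ * (A.card *
      (8 * Real.sqrt (mi P (fun ω => e (D ω) (W ω)) E (fun ω => (D ω, Θ ω))) +
        64 * Real.sqrt (mi P Θ W D))) ≤
    hc P (fun ω => fine (D ω) (Θ ω) ω)
      (fun ω => (coarse (D ω) (Θ ω) ω, (D ω, Θ ω))) := by
  obtain ⟨er, her0, her, hpt⟩ := mstepR_pt P D Θ W E e Rel geo A hA χ hχ0 hχ1 fine coarse Φ N
    hN hsat
  have hcg : ∀ ω, 0 < P.w ω → hc (P.cond (fun ω => (D ω, Θ ω)) (D ω, Θ ω))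
      (fun ω => fine (D ω) (Θ ω) ω) (fun ω => coarse (D ω) (Θ ω) ω) =
      hc (P.cond (fun ω => (D ω, Θ ω)) (D ω, Θ ω)) (fine (D ω) (Θ ω)) (coarse (D ω) (Θ ω)) := by
    intro ω hω
    have hs : ∀ ω', 0 < (P.cond (fun ω => (D ω, Θ ω)) (D ω, Θ ω)).w ω' → D ω' = D ω ∧ Θ ω' = Θ ω := by
      intro ω' h'
      have h1 := (cond_supp P (fun ω => (D ω, Θ ω)) (P.pr_pos _ hω) h').1
      exact ⟨(Prod.mk.inj h1).1, (Prod.mk.inj h1).2⟩
    refine hc_congr_supp (fun ω' h' => ?_) fun ω' h' => ?_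
    · rw [(hs ω' h').1, (hs ω' h').2]
    · rw [(hs ω' h').1, (hs ω' h').2]
  rw [hc_cond_ex P _ _ (fun ω => (D ω, Θ ω))]
  have hNρ : 0 ≤ N / ρ := div_nonneg hN hρ.le
  have h1 := P.ex_mono (f := fun ω => (1 - B ω) * Φ - N / ρ * er ω)
    (g := fun ω => hc (P.cond (fun ω => (D ω, Θ ω)) (D ω, Θ ω))
      (fun ω => fine (D ω) (Θ ω) ω) (fun ω => coarse (D ω) (Θ ω) ω)) (by
    intro ω hω
    rw [hcg ω hω]
    have h0 := hpt ω hω
    have hhc := hc_nonneg (P.cond (fun ω => (D ω, Θ ω)) (D ω, Θ ω))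
      (fine (D ω) (Θ ω)) (coarse (D ω) (Θ ω))
    set H := hc (P.cond (fun ω => (D ω, Θ ω)) (D ω, Θ ω))
      (fine (D ω) (Θ ω)) (coarse (D ω) (Θ ω))
    have hm := avG_mem P D Θ W e χ hχ0 hχ1 ω
    set v := avG P D Θ W e χ ω with hv
    have hE := mul_nonneg hNρ (her0 ω)
    by_cases hlt : v < ρ
    · have h2 := hB ω hω hlt
      have h3 : (1 - B ω) * Φ ≤ 0 := mul_nonpos_of_nonpos_of_nonneg (by linarith) hΦ
      show (1 - B ω) * Φ - N / ρ * er ω ≤ H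
      linarith
    · have hρv := not_lt.1 hlt
      have hv0 : 0 < v := hρ.trans_le hρv
      have h4 : Φ - H ≤ N / v * er ω := by
        rw [div_mul_eq_mul_div, le_div_iff₀ hv0]
        nlinarith
      have h5 : N / v * er ω ≤ N / ρ * er ω :=
        mul_le_mul_of_nonneg_right (div_le_div_of_nonneg_left hN hρ hρv) (her0 ω)
      have h6 : 0 ≤ B ω * Φ := mul_nonneg (hB0 ω) hΦ
      show (1 - B ω) * Φ - N / ρ * er ω ≤ H
      nlinarith)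
  refine le_trans ?_ h1
  rw [P.ex_sub, P.ex_const_mul]
  have h2 := mul_le_mul_of_nonneg_left her hNρ
  have e8 : P.ex (fun ω => (1 - B ω) * Φ) = (1 - P.ex B) * Φ := by
    have h3 : P.ex (fun ω => (1 - B ω) * Φ) = P.ex (fun ω => Φ * (1 - B ω)) :=
      P.ex_congr fun ω _ => by ring
    rw [h3, P.ex_const_mul, P.ex_sub, P.ex_const]
    ring
  rw [e8]
  linarith

end main

end Vale.Agent.P106.TV
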