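import Vale.Agent.P127.TV.Shift

/-!
# P106 / TV : the lattice lemma in any dimension (helper875)

A law on `ℝ ^ d` which is almost invariant under `d` translations `v k` (`|v k i| ≤ 1`, `|det v| ≥ τ`):
the cell of side `l` given the cell of side `L` has entropy `≥ d log (L / l) - O(1)`, the constant does not
depend on `τ`.

* `fib_card` : at most `((2 d + 3) l) ^ d / |det v|` multiples `n` lead to one fine cell;
* `crs_card` : at most `(3 R) ^ d |det v| / L ^ d` coarse cells are met;
* `lat_d` : the entropy.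
-/

set_option autoImplicit false

namespace Vale.Agent.P106.TV

open Finset MeasureTheory Vale.Agent.P127 Vale.Agent.P127.Stk Vale.Agent.P127.TV

variable {d : ℕ}

/-- the combination `∑ k, x k * v k` -/
noncomputable def cmb (v : Fin d → Fin d → ℝ) (x : Fin d → ℝ) (i : Fin d) : ℝ := ∑ k, x k * v k i

/-- the same as a linear map -/
noncomputable def lm (v : Fin d → Fin d → ℝ) : (Fin d → ℝ) →ₗ[ℝ] (Fin d → ℝ) :=
  Matrix.toLin' (Matrix.of v).transpose

theorem lm_apply (v : Fin d → Fin d → ℝ) (x : Fin d → ℝ) : lm v x = cmb v x := by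
  funext i
  unfold lm cmb
  rw [Matrix.toLin'_apply]
  simp only [Matrix.mulVec, dotProduct, Matrix.transpose_apply, Matrix.of_apply]
  exact Finset.sum_congr rfl fun k _ => mul_comm _ _

theorem lm_det (v : Fin d → Fin d → ℝ) : LinearMap.det (lm v) = Matrix.det (Matrix.of v) := by
  unfold lm
  rw [LinearMap.det_toLin', Matrix.det_transpose]

theorem cmb_add (v : Fin d → Fin d → ℝ) (x y : Fin d → ℝ) (i : Fin d) :
    cmb v (fun k => x k + y k) i = cmb v x i + cmb v y i := by
  unfold cmb
  rw [← Finset.sum_add_distrib]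
  exact Finset.sum_congr rfl fun k _ => by ring

/-- the determinant is at most `d!` -/
theorem det_le_fact (A : Matrix (Fin d) (Fin d) ℝ) (hA : ∀ i j, |A i j| ≤ 1) :
    |A.det| ≤ (d.factorial : ℝ) := by
  have := Matrix.det_le (A := A) (abv := (AbsoluteValue.abs : AbsoluteValue ℝ ℝ)) (x := 1)
    (fun i j => hA i j)
  simpa using this

/-- solving with a bound -/
theorem solve (v : Fin d → Fin d → ℝ) (hv : ∀ k i, |v k i| ≤ 1)
    (hdet : 0 < |Matrix.det (Matrix.of v)|) (w : Fin d → ℝ) (r : ℝ) (hr : 0 ≤ r)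
    (hw : ∀ i, |w i| ≤ r) :
    ∃ x : Fin d → ℝ, cmb v x = w ∧ ∀ k, |x k| ≤ d * d.factorial * r / |Matrix.det (Matrix.of v)| := by
  classical
  set A : Matrix (Fin d) (Fin d) ℝ := Matrix.of v with hA
  have hAd : A.det ≠ 0 := abs_pos.1 hdet
  have hadj : ∀ i k, |A.adjugate i k| ≤ (d.factorial : ℝ) := by
    intro i k
    rw [Matrix.adjugate_apply]
    refine det_le_fact _ fun a b => ?_
    by_cases h : a = k
    · subst h
      rw [Matrix.updateRow_self]
      by_cases hb : b = i
      · subst hb; simp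
      · rw [Pi.single_eq_of_ne hb]; simp
    · rw [Matrix.updateRow_ne h]
      exact hv a b
  refine ⟨fun k => ∑ i, w i * (A.adjugate i k / A.det), ?_, ?_⟩
  · funext j
    unfold cmb
    have h1 : ∀ k, (∑ i, w i * (A.adjugate i k / A.det)) * v k j =
        ∑ i, w i / A.det * (A.adjugate i k * A k j) := by
      intro k
      rw [Finset.sum_mul]
      refine Finset.sum_congr rfl fun i _ => ?_
      have : v k j = A k j := rfl
      rw [this]
      ring
    rw [Finset.sum_congr rfl fun k _ => h1 k, Finset.sum_comm]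
    have h2 : ∀ i, ∑ k, w i / A.det * (A.adjugate i k * A k j) = if i = j then w i else 0 := by
      intro i
      rw [← Finset.mul_sum]
      have h3 : ∑ k, A.adjugate i k * A k j = (A.adjugate * A) i j := by
        rw [Matrix.mul_apply]
      rw [h3, Matrix.adjugate_mul, Matrix.smul_apply, Matrix.one_apply]
      split_ifs
      · simp only [smul_eq_mul, mul_one]
        rw [div_mul_cancel₀ _ hAd]
      · simp
    rw [Finset.sum_congr rfl fun i _ => h2 i, Finset.sum_ite_eq' univ j]
    simp
  · intro k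
    refine (Finset.abs_sum_le_sum_abs _ _).trans ?_
    have h1 : ∀ i ∈ (univ : Finset (Fin d)), |w i * (A.adjugate i k / A.det)| ≤
        r * (d.factorial / |A.det|) := by
      intro i _
      rw [abs_mul, abs_div]
      exact mul_le_mul (hw i) (div_le_div_of_nonneg_right (hadj i k) hdet.le) (by positivity) hr
    refine (Finset.sum_le_sum h1).trans (le_of_eq ?_)
    rw [Finset.sum_const, Finset.card_univ, Fintype.card_fin, nsmul_eq_mul]
    ring

/-- half open unit cube -/
def cube (n : Fin d → ℤ) : Set (Fin d → ℝ) := Set.pi Set.univ fun i => Set.Ico (n i : ℝ) (n i + 1)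

theorem mem_cube {n : Fin d → ℤ} {x : Fin d → ℝ} : x ∈ cube n ↔ ∀ i, ⌊x i⌋ = n i := by
  unfold cube
  simp only [Set.mem_pi, Set.mem_univ, true_implies, Set.mem_Ico]
  exact forall_congr' fun i => (Int.floor_eq_iff).symm

/-- the volume of finitely many unit cubes -/
theorem vol_cubes (S : Finset (Fin d → ℤ)) :
    volume (⋃ n ∈ S, cube n) = (S.card : ENNReal) := by
  rw [measure_biUnion_finset]
  · have : ∀ n ∈ S, volume (cube (d := d) n) = 1 := by
      intro n _
      unfold cube
      rw [Real.volume_pi_Ico]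
      simp
    rw [Finset.sum_congr rfl this]
    simp
  · intro a _ b _ hab
    rw [Function.onFun, Set.disjoint_left]
    intro x hx hx'
    apply hab
    rw [mem_cube] at hx hx'
    funext i
    rw [← hx i, ← hx' i]
  · intro n _
    unfold cube
    exact MeasurableSet.univ_pi fun i => measurableSet_Ico

/-- closed box -/
theorem vol_box (c : Fin d → ℝ) (r : ℝ) (hr : 0 ≤ r) :
    volume (Set.Icc (fun i => c i - r) (fun i => c i + r)) = ENNReal.ofReal ((2 * r) ^ d) := by
  rw [Real.volume_Icc_pi]
  have : ∀ i : Fin d, c i + r - (c i - r) = 2 * r := fun i => by ring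
  simp only [this, Finset.prod_const, Finset.card_univ, Fintype.card_fin]
  rw [ENNReal.ofReal_pow (by linarith)]

/-- `(x'')` is `x` translated by `∑ n k * v k`, up to rounding -/
def Mvd (v : Fin d → Fin d → ℝ) (z : Fin d → ℝ) (n : Fin d → ℕ) (z' : Fin d → ℝ) : Prop :=
  ∀ i, |z' i - z i - cmb v (fun k => n k) i| ≤ 1

/-- the cell of side `l` -/
noncomputable def celd (l : ℝ) (z : Fin d → ℝ) (i : Fin d) : ℤ := ⌊z i / l⌋

theorem abs_fl {l x : ℝ} (hl : 0 < l) {u : ℤ} (h : ⌊x / l⌋ = u) :
    |x - ((u : ℝ) + 1 / 2) * l| ≤ l / 2 := by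
  have h1 := Int.floor_le (x / l)
  have h2 := Int.lt_floor_add_one (x / l)
  rw [h] at h1 h2
  rw [le_div_iff₀ hl] at h1
  rw [div_lt_iff₀ hl] at h2
  rw [abs_le]
  constructor <;> linarith

/-- **fibres over a fine cell** -/
theorem fib_card (v : Fin d → Fin d → ℝ) (hv : ∀ k i, |v k i| ≤ 1) (S : Finset (Fin d → ℕ)) (l : ℝ)
    (hl : 1 ≤ l) (z : Fin d → ℝ) (q : Fin d → ℤ)
    (h : ∀ n ∈ S, ∃ z', Mvd v z n z' ∧ celd l z' = q) :
    |Matrix.det (Matrix.of v)| * S.card ≤ ((2 * d + 3) * l) ^ d := by
  classical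
  have hl0 : 0 < l := by linarith
  set S' : Finset (Fin d → ℤ) := S.image fun n k => (n k : ℤ) with hS'
  have hcard : S'.card = S.card := by
    rw [hS', Finset.card_image_of_injective]
    intro a b hab
    funext k
    have := congrFun hab k
    simpa using this
  set c : Fin d → ℝ := fun i => ((q i : ℝ) + 1 / 2) * l - z i with hc
  set r : ℝ := l / 2 + 1 + d with hr
  have hsub : lm v '' (⋃ n ∈ S', cube n) ⊆ Set.Icc (fun i => c i - r) (fun i => c i + r) := by
    rintro y ⟨x, hx, rfl⟩
    rw [Set.mem_iUnion₂] at hx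
    obtain ⟨n', hn', hx⟩ := hx
    rw [hS', Finset.mem_image] at hn'
    obtain ⟨n, hn, rfl⟩ := hn'
    rw [mem_cube] at hx
    obtain ⟨z', hz', hq⟩ := h n hn
    have key : ∀ i, |cmb v x i - c i| ≤ r := by
      intro i
      have h1 := hz' i
      have h2 := abs_fl hl0 (congrFun hq i)
      have h3 : cmb v x i = cmb v (fun k => (n k : ℝ)) i + cmb v (fun k => x k - n k) i := by
        rw [← cmb_add]
        congr 1
        funext k
        ring
      have h4 : |cmb v (fun k => x k - n k) i| ≤ d := by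
        unfold cmb
        refine (Finset.abs_sum_le_sum_abs _ _).trans ?_
        have h5 : ∀ k ∈ (univ : Finset (Fin d)), |(x k - n k) * v k i| ≤ 1 := by
          intro k _
          rw [abs_mul]
          have h6 : |x k - n k| ≤ 1 := by
            have h7 := hx k
            have h8 := Int.floor_le (x k)
            have h9 := Int.lt_floor_add_one (x k)
            rw [h7] at h8 h9
            push_cast at h8 h9
            rw [abs_le]
            constructor <;> linarith
          exact mul_le_one₀ h6 (abs_nonneg _) (hv k i)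
        refine (Finset.sum_le_sum h5).trans (le_of_eq ?_)
        simp
      rw [h3]
      have e : cmb v (fun k => (n k : ℝ)) i + cmb v (fun k => x k - n k) i - c i =
          -(z' i - z i - cmb v (fun k => (n k : ℝ)) i) + (z' i - ((q i : ℝ) + 1 / 2) * l) +
            cmb v (fun k => x k - n k) i := by
        rw [hc]; ring
      have h1' : |-(z' i - z i - cmb v (fun k => (n k : ℝ)) i)| ≤ 1 := by
        rw [abs_neg]; exact h1
      rw [e]
      refine (abs_add_le _ _).trans ((add_le_add ((abs_add_le _ _).trans (add_le_add h1' h2))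
        h4).trans (le_of_eq ?_))
      rw [hr]; ring
    rw [lm_apply, Set.mem_Icc]
    constructor
    · intro i
      have := (abs_le.1 (key i)).1
      simp only
      linarith
    · intro i
      have := (abs_le.1 (key i)).2
      simp only
      linarith
  have hvol := measure_mono (μ := volume) hsub
  rw [Measure.addHaar_image_linearMap, lm_det, vol_cubes, vol_box _ _ (by positivity), hcard] at hvol
  have h1 : ENNReal.ofReal |Matrix.det (Matrix.of v)| * (S.card : ENNReal) =
      ENNReal.ofReal (|Matrix.det (Matrix.of v)| * S.card) := by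
    rw [ENNReal.ofReal_mul (abs_nonneg _), ENNReal.ofReal_natCast]
  rw [h1, ENNReal.ofReal_le_ofReal_iff (by positivity)] at hvol
  refine hvol.trans ?_
  refine pow_le_pow_left₀ (by positivity) ?_ _
  have hd0 : (0 : ℝ) ≤ d := Nat.cast_nonneg d
  rw [hr]
  nlinarith

/-- **number of coarse cells** -/
theorem crs_card (v : Fin d → Fin d → ℝ) (hv : ∀ k i, |v k i| ≤ 1) (τ L : ℝ) (R : ℕ) (hτ : 0 < τ)
    (hdet : τ ≤ |Matrix.det (Matrix.of v)|) (hL : 1 ≤ L) (hR : 2 * d * d.factorial * L ≤ R * τ)
    (Q : Finset (Fin d → ℤ)) (z : Fin d → ℝ)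
    (h : ∀ q ∈ Q, ∃ (n : Fin d → ℕ) (z' : Fin d → ℝ), (∀ k, n k ≤ R) ∧ Mvd v z n z' ∧
      celd L z' = q) :
    (Q.card : ℝ) * L ^ d ≤ |Matrix.det (Matrix.of v)| * (3 * R) ^ d := by
  classical
  have hL0 : 0 < L := by linarith
  have hD : 0 < |Matrix.det (Matrix.of v)| := hτ.trans_le hdet
  -- the cells of side `L`, as images of unit cubes
  set g : (Fin d → ℝ) →ₗ[ℝ] (Fin d → ℝ) := LinearMap.lsmul ℝ (Fin d → ℝ) L with hg
  have hgv : volume (g '' (⋃ n ∈ Q, cube n)) = ENNReal.ofReal (L ^ d) * (Q.card : ENNReal) := by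
    rw [Measure.addHaar_image_linearMap, vol_cubes]
    congr 2
    have : g = L • LinearMap.id := by
      ext; simp [hg]
    rw [this, LinearMap.det_smul, LinearMap.det_id, mul_one, Module.finrank_fin_fun,
      abs_of_pos (by positivity)]
  set c : Fin d → ℝ := fun _ => (R : ℝ) / 2 with hc
  have hsub : g '' (⋃ n ∈ Q, cube n) ⊆ (fun y => -z + y) ⁻¹'
      (lm v '' (Set.Icc (fun i => c i - 3 * R / 2) (fun i => c i + 3 * R / 2))) := by
    rintro y ⟨x, hx, rfl⟩
    rw [Set.mem_iUnion₂] at hx
    obtain ⟨q, hq, hx⟩ := hx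
    rw [mem_cube] at hx
    obtain ⟨n, z', hn, hz', hqe⟩ := h q hq
    obtain ⟨x', hx', hb⟩ := solve v hv hD (fun i => L * x i - z i - cmb v (fun k => n k) i) (2 * L)
      (by linarith) (fun i => by
        have h1 := hz' i
        have h2 : |L * x i - z' i| ≤ L := by
          have e1 := Int.floor_le (z' i / L)
          have e2 := Int.lt_floor_add_one (z' i / L)
          have e3 := Int.floor_le (x i)
          have e4 := Int.lt_floor_add_one (x i)
          have e5 : ⌊z' i / L⌋ = q i := congrFun hqe i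
          rw [hx i] at e3 e4
          rw [e5] at e1 e2
          rw [le_div_iff₀ hL0] at e1
          rw [div_lt_iff₀ hL0] at e2
          have e6 := mul_le_mul_of_nonneg_left e3 hL0.le
          have e7 := mul_le_mul_of_nonneg_left e4.le hL0.le
          rw [abs_le]
          constructor <;> linarith
        have e : L * x i - z i - cmb v (fun k => (n k : ℝ)) i =
            (L * x i - z' i) + (z' i - z i - cmb v (fun k => (n k : ℝ)) i) := by ring
        rw [e]
        refine (abs_add_le _ _).trans ?_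
        linarith)
    refine ⟨fun k => n k + x' k, ?_, ?_⟩
    · have hbb : ∀ k, |x' k| ≤ R := by
        intro k
        refine (hb k).trans ?_
        rw [div_le_iff₀ hD]
        have h3 : (R : ℝ) * τ ≤ R * |Matrix.det (Matrix.of v)| :=
          mul_le_mul_of_nonneg_left hdet (Nat.cast_nonneg _)
        calc (d : ℝ) * d.factorial * (2 * L) = 2 * d * d.factorial * L := by ring
          _ ≤ _ := hR.trans h3
      rw [Set.mem_Icc]
      constructor
      · intro k
        have h4 := (abs_le.1 (hbb k)).1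
        have h5 : (0 : ℝ) ≤ n k := Nat.cast_nonneg _
        simp only [hc]
        linarith
      · intro k
        have h4 := (abs_le.1 (hbb k)).2
        have h5 : (n k : ℝ) ≤ R := by exact_mod_cast hn k
        simp only [hc]
        linarith
    · funext i
      rw [lm_apply, cmb_add, congrFun hx' i]
      simp only [hg, LinearMap.lsmul_apply, Pi.add_apply, Pi.neg_apply, Pi.smul_apply, smul_eq_mul]
      ring
  have hvol := measure_mono (μ := volume) hsub
  have hbox := vol_box c (3 * R / 2) (by positivity)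
  rw [show 2 * (3 * (R : ℝ) / 2) = 3 * R by ring] at hbox
  rw [hgv, measure_preimage_add, Measure.addHaar_image_linearMap, lm_det, hbox,
    ← ENNReal.ofReal_natCast, ← ENNReal.ofReal_mul (by positivity),
    ← ENNReal.ofReal_mul (abs_nonneg _), ENNReal.ofReal_le_ofReal_iff (by positivity)] at hvol
  linarith

/-! ### the entropy -/

variable {Ω : Type} [Fintype Ω]

/-- multiples of the translations -/
theorem tr_cmb {Q : Law Ω} {X : Ω → Fin d → ℝ} {v : Fin d → Fin d → ℝ} {ρ : ℝ} {e : Fin d → ℝ}
    (h : ∀ k, Tr Q X (v k) (fun _ => ρ) (e k)) (n : Fin d → ℕ) :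
    Tr Q X (cmb v fun k => n k) (fun _ => ∑ k, n k * ρ) (∑ k, n k * e k) := by
  classical
  have key : ∀ s : Finset (Fin d), Tr Q X (fun i => ∑ k ∈ s, (n k : ℝ) * v k i)
      (fun _ => ∑ k ∈ s, n k * ρ) (∑ k ∈ s, n k * e k) := by
    intro s
    induction s using Finset.induction_on with
    | empty => simpa using Tr.zero Q X
    | insert a s ha ih =>
      simp only [Finset.sum_insert ha]
      exact ((h a).nsmul (n a)).add ih
  exact key univ

theorem log_fl {x : ℝ} (hx : 1 ≤ x) : Real.log (⌊x⌋₊ : ℝ) ≤ Real.log x := by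
  have h1 : 1 ≤ ⌊x⌋₊ := Nat.le_floor (by exact_mod_cast hx)
  exact Real.log_le_log (by exact_mod_cast h1) (Nat.floor_le (by linarith))

/-- **LATTICE LEMMA**, any dimension -/
theorem lat_d (Q : Law Ω) (X : Ω → Fin d → ℝ) (v : Fin d → Fin d → ℝ) (τ l L ρ : ℝ)
    (e : Fin d → ℝ) (R : ℕ) (hv : ∀ k i, |v k i| ≤ 1) (hτ : 0 < τ)
    (hdet : τ ≤ |Matrix.det (Matrix.of v)|) (hl : 1 ≤ l) (hlL : l ≤ L)
    (hR : 2 * d * d.factorial * L ≤ R * τ) (hρ : 0 ≤ ρ) (hRρ : d * R * ρ ≤ 1)
    (h : ∀ k, Tr Q X (v k) (fun _ => ρ) (e k)) :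
    d * Real.log (L / l) - d * Real.log (3 * (2 * d + 3)) -
        R * (∑ k, e k) * (1 + d * Real.log R) ≤
      hc Q (fun ω => celd l (X ω)) (fun ω => celd L (X ω)) := by
  classical
  rcases Nat.eq_zero_or_pos d with hd0 | hd
  · subst hd0
    have := hc_nonneg Q (fun ω => celd l (X ω)) (fun ω => celd L (X ω))
    simpa using this
  have hl0 : 0 < l := by linarith
  have hL0 : 0 < L := by linarith
  have hdr : (1 : ℝ) ≤ d := by exact_mod_cast hd
  have hfr : (1 : ℝ) ≤ d.factorial := by exact_mod_cast Nat.one_le_iff_ne_zero.2 (Nat.factorial_ne_zero d)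
  set D : ℝ := |Matrix.det (Matrix.of v)| with hDdef
  have hD : 0 < D := hτ.trans_le hdet
  have hRr : (0 : ℝ) < R := by
    by_contra hcon
    have h1 : (R : ℝ) * τ ≤ 0 := mul_nonpos_of_nonpos_of_nonneg (not_lt.1 hcon) hτ.le
    have h2 : 0 < 2 * (d : ℝ) * d.factorial * L := by positivity
    linarith
  have hRpos : 0 < R := by exact_mod_cast hRr
  have he : ∀ k, 0 ≤ e k := fun k => SubC.eps_nonneg (h k)
  have : Nonempty (Fin d → Fin R) := ⟨fun _ => ⟨0, hRpos⟩⟩
  -- a point of the law
  obtain ⟨ω₀, hω₀⟩ : ∃ ω, 0 < Q.w ω := by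
    by_contra hcon
    push Not at hcon
    have : ∑ ω, Q.w ω ≤ 0 := Finset.sum_nonpos fun ω _ => hcon ω
    rw [Q.sum_one] at this
    linarith
  set x0 : ℝ := ((2 * d + 3) * l) ^ d / D with hx0
  set x1 : ℝ := D * (3 * R) ^ d / L ^ d with hx1
  have hfib : ∀ (S : Finset (Fin d → ℕ)) (z : Fin d → ℝ) (q : Fin d → ℤ),
      (∀ n ∈ S, ∃ z', Mvd v z n z' ∧ celd l z' = q) → (S.card : ℝ) ≤ x0 := by
    intro S z q hS
    rw [hx0, le_div_iff₀ hD, mul_comm]
    exact fib_card v hv S l hl z q hS
  have hcrs : ∀ (T : Finset (Fin d → ℤ)) (z : Fin d → ℝ),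
      (∀ q ∈ T, ∃ (n : Fin d → ℕ) (z' : Fin d → ℝ), (∀ k, n k ≤ R) ∧ Mvd v z n z' ∧
        celd L z' = q) → (T.card : ℝ) ≤ x1 := by
    intro T z hT
    rw [hx1, le_div_iff₀ (by positivity)]
    exact crs_card v hv τ L R hτ hdet (hl.trans hlL) hR T z hT
  have hzero : ∀ z : Fin d → ℝ, Mvd v z (fun _ => 0) z := by
    intro z i
    simp [cmb]
  have h1x0 : 1 ≤ x0 := by
    have := hfib {fun _ => 0} (X ω₀) (celd l (X ω₀)) (by
      intro n hn
      rw [Finset.mem_singleton] at hn
      subst hn
      exact ⟨X ω₀, hzero _, rfl⟩)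
    simpa using this
  have h1x1 : 1 ≤ x1 := by
    have := hcrs {celd L (X ω₀)} (X ω₀) (by
      intro q hq
      rw [Finset.mem_singleton] at hq
      exact ⟨fun _ => 0, X ω₀, fun _ => Nat.zero_le _, hzero _, hq.symm⟩)
    simpa using this
  set E : ℝ := R * ∑ k, e k with hE
  have key := spread Q (K := Fin d → Fin R)
    (fun n a b => Mvd v (X a) (fun k => (n k : ℕ)) (X b)) (fun _ => E)
    (fun n => by
      have hn : ∀ k, ((n k : ℕ) : ℝ) ≤ R := fun k => by exact_mod_cast (n k).2.le
      refine Tr.mono (c' := fun _ => 1) (tr_cmb h fun k => (n k : ℕ)) (fun i => ?_) ?_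
      · refine le_trans (Finset.sum_le_sum fun k _ => mul_le_mul_of_nonneg_right (hn k) hρ) ?_
        rw [Finset.sum_const, Finset.card_univ, Fintype.card_fin, nsmul_eq_mul]
        linarith
      · rw [hE, Finset.mul_sum]
        exact Finset.sum_le_sum fun k _ => mul_le_mul_of_nonneg_right (hn k) (he k))
    (fun ω => celd l (X ω)) (fun ω => celd L (X ω)) ⌊x0⌋₊ ⌊x1⌋₊ ?_ ?_
  · have hcard : (Fintype.card (Fin d → Fin R) : ℝ) = (R : ℝ) ^ d := by simp
    have hsum : (∑ _k : Fin d → Fin R, E) / Fintype.card (Fin d → Fin R) = E := by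
      rw [Finset.sum_const, Finset.card_univ, nsmul_eq_mul, mul_comm, mul_div_assoc, div_self,
        mul_one]
      rw [hcard]
      positivity
    rw [hsum, hcard, Real.log_pow] at key
    have e0 := log_fl h1x0
    have e1 := log_fl h1x1
    have e2 : Real.log x0 + Real.log x1 =
        d * Real.log (3 * (2 * d + 3)) + d * Real.log R - d * Real.log (L / l) := by
      have e3 : x0 * x1 = ((3 * (2 * d + 3)) * R / (L / l)) ^ d := by
        rw [hx0, hx1, div_pow, mul_pow, mul_pow, mul_pow, mul_pow, div_pow]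
        field_simp
      rw [← Real.log_mul (by positivity) (by positivity), e3, Real.log_pow,
        Real.log_div (by positivity) (by positivity), Real.log_mul (by positivity) hRr.ne']
      ring
    have e4 : E * (1 + d * Real.log R) = R * (∑ k, e k) * (1 + d * Real.log R) := by rw [hE]
    linarith
  · intro a b _ _
    refine ⟨univ.filter fun n : Fin d → Fin R => ∃ b', Mvd v (X a) (fun k => (n k : ℕ)) (X b') ∧
      celd l (X b') = celd l (X b), ?_, ?_⟩
    · refine Nat.le_floor ?_
      set S : Finset (Fin d → Fin R) := univ.filter fun n : Fin d → Fin R =>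
        ∃ b', Mvd v (X a) (fun k => (n k : ℕ)) (X b') ∧ celd l (X b') = celd l (X b) with hS
      have hinj : Function.Injective (fun (n : Fin d → Fin R) (k : Fin d) => (n k : ℕ)) := by
        intro n n' hn
        funext k
        exact Fin.ext (congrFun hn k)
      have hcS : (S.card : ℝ) = ((S.image fun (n : Fin d → Fin R) (k : Fin d) =>
          (n k : ℕ)).card : ℝ) := by
        rw [Finset.card_image_of_injective _ hinj]
      rw [hcS]
      refine hfib _ (X a) (celd l (X b)) ?_
      intro n hn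
      rw [Finset.mem_image] at hn
      obtain ⟨k, hk, rfl⟩ := hn
      rw [hS, Finset.mem_filter] at hk
      obtain ⟨b', h1, h2⟩ := hk.2
      exact ⟨X b', h1, h2⟩
    · intro n b' _ hk hf
      rw [Finset.mem_filter]
      exact ⟨Finset.mem_univ _, b', hk, hf⟩
  · intro a _
    refine ⟨(univ.filter fun b : Ω => ∃ n : Fin d → Fin R, Mvd v (X a) (fun k => (n k : ℕ))
      (X b)).image fun b => celd L (X b), ?_, ?_⟩
    · refine Nat.le_floor ?_
      refine hcrs _ (X a) ?_
      intro q hq
      rw [Finset.mem_image] at hq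
      obtain ⟨b, hb, rfl⟩ := hq
      rw [Finset.mem_filter] at hb
      obtain ⟨n, hn⟩ := hb.2
      exact ⟨fun k => (n k : ℕ), X b, fun k => (n k).2.le, hn, rfl⟩
    · intro n b _ hk
      rw [Finset.mem_image]
      exact ⟨b, by rw [Finset.mem_filter]; exact ⟨Finset.mem_univ _, n, hk⟩, rfl⟩

end Vale.Agent.P106.TV
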