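import Vale.Agent.P106.TV.LatD

/-!
# P106 / TV : the lattice lemma, any finite index type (helper875)

* `lat_i` : `lat_d` for vectors indexed by any finite type;
* `lat_iB` : the translations are bounded by `B ≥ 1` instead of `1` (then `B ≤ l`).
-/

set_option autoImplicit false

namespace Vale.Agent.P106.TV

open Finset MeasureTheory Vale.Agent.P127 Vale.Agent.P127.Stk Vale.Agent.P127.TV

variable {ι : Type} [Fintype ι] [DecidableEq ι] {Ω : Type} [Fintype Ω]

/-- the cell of side `l` -/
noncomputable def celi (l : ℝ) (z : ι → ℝ) (i : ι) : ℤ := ⌊z i / l⌋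

/-- **LATTICE LEMMA**, any finite index type -/
theorem lat_i (Q : Law Ω) (X : Ω → ι → ℝ) (v : ι → ι → ℝ) (τ l L ρ : ℝ)
    (e : ι → ℝ) (R : ℕ) (hv : ∀ k i, |v k i| ≤ 1) (hτ : 0 < τ)
    (hdet : τ ≤ |Matrix.det (Matrix.of v)|) (hl : 1 ≤ l) (hlL : l ≤ L)
    (hR : 2 * Fintype.card ι * (Fintype.card ι).factorial * L ≤ R * τ) (hρ : 0 ≤ ρ)
    (hRρ : Fintype.card ι * R * ρ ≤ 1) (h : ∀ k, Tr Q X (v k) (fun _ => ρ) (e k)) :
    Fintype.card ι * Real.log (L / l) - Fintype.card ι * Real.log (3 * (2 * Fintype.card ι + 3)) -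
        R * (∑ k, e k) * (1 + Fintype.card ι * Real.log R) ≤
      hc Q (fun ω => celi l (X ω)) (fun ω => celi L (X ω)) := by
  classical
  set σ := Fintype.equivFin ι with hσ
  have h1 := lat_d Q (fun ω k => X ω (σ.symm k)) (fun k i => v (σ.symm k) (σ.symm i)) τ l L ρ
    (fun k => e (σ.symm k)) R (fun k i => hv _ _) hτ (by
      have : Matrix.of (fun k i => v (σ.symm k) (σ.symm i)) =
          (Matrix.of v).submatrix σ.symm σ.symm := rfl
      rw [this, Matrix.det_submatrix_equiv_self]
      exact hdet) hl hlL hR hρ hRρ (fun k => by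
      refine SubC.mono (h (σ.symm k)) (fun a b hab i => hab _) le_rfl)
  have h2 : ∑ k, e (σ.symm k) = ∑ k, e k := Equiv.sum_comp σ.symm e
  rw [h2] at h1
  refine h1.trans ?_
  refine (hc_mono_left Q (X' := fun ω => celi l (X ω)) ?_).trans
    (hc_mono_right Q _ ?_)
  · intro a b _ _ hab
    funext k
    exact congrFun (congrArg Prod.fst hab) (σ.symm k)
  · intro a b _ _ hab
    funext i
    have := congrFun hab (σ i)
    simpa [celd, celi] using this

/-- the same, for translations bounded by `B` -/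
theorem lat_iB (Q : Law Ω) (X : Ω → ι → ℝ) (v : ι → ι → ℝ) (B τ l L ρ : ℝ)
    (e : ι → ℝ) (R : ℕ) (hB : 1 ≤ B) (hv : ∀ k i, |v k i| ≤ B) (hτ : 0 < τ)
    (hdet : τ ≤ |Matrix.det (Matrix.of v)|) (hl : B ≤ l) (hlL : l ≤ L)
    (hR : 2 * Fintype.card ι * (Fintype.card ι).factorial * L * B ^ Fintype.card ι ≤ R * τ)
    (hρ : 0 ≤ ρ) (hRρ : Fintype.card ι * R * ρ ≤ 1) (h : ∀ k, Tr Q X (v k) (fun _ => ρ) (e k)) :
    Fintype.card ι * Real.log (L / l) - Fintype.card ι * Real.log (3 * (2 * Fintype.card ι + 3)) -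
        R * (∑ k, e k) * (1 + Fintype.card ι * Real.log R) ≤
      hc Q (fun ω => celi l (X ω)) (fun ω => celi L (X ω)) := by
  classical
  have hB0 : 0 < B := by linarith
  have h1 := lat_i Q (fun ω i => X ω i / B) (fun k i => v k i / B) (τ / B ^ Fintype.card ι) (l / B)
    (L / B) (ρ / B) e R (fun k i => by
      rw [abs_div, abs_of_pos hB0, div_le_one hB0]
      exact hv k i) (by positivity) (by
      have e1 : Matrix.of (fun k i => v k i / B) = B⁻¹ • Matrix.of v := by
        ext k i
        simp only [Matrix.smul_apply, Matrix.of_apply, smul_eq_mul]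
        field_simp
      rw [e1, Matrix.det_smul, abs_mul, abs_pow, abs_of_pos (by positivity : 0 < B⁻¹), inv_pow,
        div_eq_inv_mul]
      exact mul_le_mul_of_nonneg_left hdet (by positivity))
    (by rw [le_div_iff₀ hB0]; linarith) (div_le_div_of_nonneg_right hlL hB0.le) (by
      rw [← mul_div_assoc, ← mul_div_assoc, div_le_div_iff₀ hB0 (by positivity)]
      calc 2 * (Fintype.card ι : ℝ) * (Fintype.card ι).factorial * L * B ^ Fintype.card ι ≤
            R * τ := hR
        _ = R * τ * 1 := (mul_one _).symm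
        _ ≤ R * τ * B := mul_le_mul_of_nonneg_left hB (by positivity)) (by positivity) (by
      rw [← mul_div_assoc, div_le_one hB0]
      exact hRρ.trans hB) (fun k => by
      refine SubC.mono (h k) (fun a b hab i => ?_) le_rfl
      have e2 : X b i / B - X a i / B - v k i / B = (X b i - X a i - v k i) / B := by ring
      rw [e2, abs_div, abs_of_pos hB0]
      exact div_le_div_of_nonneg_right (hab i) hB0.le)
  have hc1 : ∀ (s : ℝ) (x : ι → ℝ), celi (s / B) (fun i => x i / B) = celi s x := by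
    intro s x
    funext i
    unfold celi
    rw [div_div_div_cancel_right₀ hB0.ne']
  simp only [hc1] at h1
  rw [div_div_div_cancel_right₀ hB0.ne'] at h1
  exact h1

end Vale.Agent.P106.TV
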