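import Vale.Agent.P106.TV.LatI

/-!
# P106 / TV : the lattice lemma in scale invariant form (helper875)

`lat_s` : translations bounded by `l`, `|det v| ≥ τ l ^ n`, `2 n n! (L / l) ≤ R τ`, `n R ρ ≤ l`.
-/

set_option autoImplicit false

namespace Vale.Agent.P106.TV

open Finset MeasureTheory Vale.Agent.P127 Vale.Agent.P127.Stk Vale.Agent.P127.TV

variable {ι : Type} [Fintype ι] [DecidableEq ι] {Ω : Type} [Fintype Ω]

/-- **LATTICE LEMMA**, scale invariant form -/
theorem lat_s (Q : Law Ω) (X : Ω → ι → ℝ) (v : ι → ι → ℝ) (τ l L ρ : ℝ)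
    (e : ι → ℝ) (R : ℕ) (hl : 0 < l) (hlL : l ≤ L) (hv : ∀ k i, |v k i| ≤ l) (hτ : 0 < τ)
    (hdet : τ * l ^ Fintype.card ι ≤ |Matrix.det (Matrix.of v)|)
    (hR : 2 * Fintype.card ι * (Fintype.card ι).factorial * (L / l) ≤ R * τ)
    (hρ : 0 ≤ ρ) (hRρ : Fintype.card ι * R * ρ ≤ l) (h : ∀ k, Tr Q X (v k) (fun _ => ρ) (e k)) :
    Fintype.card ι * Real.log (L / l) - Fintype.card ι * Real.log (3 * (2 * Fintype.card ι + 3)) -
        R * (∑ k, e k) * (1 + Fintype.card ι * Real.log R) ≤
      hc Q (fun ω => celi l (X ω)) (fun ω => celi L (X ω)) := by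
  classical
  have h1 := lat_i Q (fun ω i => X ω i / l) (fun k i => v k i / l) τ 1 (L / l) (ρ / l) e R
    (fun k i => by
      rw [abs_div, abs_of_pos hl, div_le_one hl]
      exact hv k i) hτ (by
      have e1 : Matrix.of (fun k i => v k i / l) = l⁻¹ • Matrix.of v := by
        ext k i
        simp only [Matrix.smul_apply, Matrix.of_apply, smul_eq_mul]
        field_simp
      rw [e1, Matrix.det_smul, abs_mul, abs_pow, abs_of_pos (by positivity : 0 < l⁻¹), inv_pow,
        ← div_eq_inv_mul, le_div_iff₀ (by positivity)]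
      exact hdet)
    le_rfl (by rwa [le_div_iff₀ hl, one_mul]) hR (by positivity) (by
      rw [← mul_div_assoc, div_le_one hl]
      exact hRρ) (fun k => by
      refine SubC.mono (h k) (fun a b hab i => ?_) le_rfl
      have e2 : X b i / l - X a i / l - v k i / l = (X b i - X a i - v k i) / l := by ring
      rw [e2, abs_div, abs_of_pos hl]
      exact div_le_div_of_nonneg_right (hab i) hl.le)
  have hc1 : ∀ x : ι → ℝ, celi 1 (fun i => x i / l) = celi l x := by
    intro x
    funext i
    unfold celi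
    rw [div_one]
  have hc2 : ∀ x : ι → ℝ, celi (L / l) (fun i => x i / l) = celi L x := by
    intro x
    funext i
    unfold celi
    rw [div_div_div_cancel_right₀ hl.ne']
  simp only [hc1, hc2] at h1
  rw [div_one] at h1
  exact h1

end Vale.Agent.P106.TV
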