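import Vale.Agent.P127.TV.MStepC

/-!
# P106 / TV : the M-step with a general displacement (helper459, after helper572's `mstepC`)

* `cop R κ` : the law of independent copies of `R`, indexed by the finite type `κ`.
* `GeoG` : the position seen at the copy `θ'` is the position plus `F d θ θ' x` (any function; `x` the block of
  the velocity, in any type).
* `mstepG_pt`, `mstepG` : approximate invariance under the displacements `F d θ θ' x - F d θ θ' x'` for a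
  finite set `A` of pairs of copies, pointwise and averaged form.
-/

set_option autoImplicit false

namespace Vale.Agent.P106.TV

open Finset Vale.Agent.P127 Vale.Agent.P127.Stk Vale.Agent.P127.U.Pin Vale.Agent.P127.TV

variable {Ω : Type} [Fintype Ω] {ι : Type*} {S T U V F' G Z X : Type*}

/-! ### independent copies -/

section copies

variable {κ : Type} [Fintype κ] [DecidableEq κ]

/-- the law of independent copies -/
noncomputable def cop (R : Law Ω) (κ : Type) [Fintype κ] [DecidableEq κ] : Law (κ → Ω) where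
  w z := ∏ i, R.w (z i)
  nn z := Finset.prod_nonneg fun i _ => R.nn _
  sum_one := by
    have h := Finset.prod_univ_sum (fun _ : κ => (univ : Finset Ω)) (fun _ ω => R.w ω)
    rw [Fintype.piFinset_univ] at h
    rw [← h]
    simp [R.sum_one]

theorem cop_ex_prod (R : Law Ω) (g : κ → Ω → ℝ) :
    (cop R κ).ex (fun z => ∏ i, g i (z i)) = ∏ i, R.ex (g i) := by
  unfold Law.ex cop
  have h := Finset.prod_univ_sum (fun _ : κ => (univ : Finset Ω)) (fun i ω => R.w ω * g i ω)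
  rw [Fintype.piFinset_univ] at h
  rw [h]
  refine Finset.sum_congr rfl fun z _ => ?_
  rw [Finset.prod_mul_distrib]

theorem cop_supp {R : Law Ω} {z : κ → Ω} (h : 0 < (cop R κ).w z) (i : κ) : 0 < R.w (z i) := by
  rcases (R.nn (z i)).eq_or_lt with h0 | h0
  · exfalso
    have : (cop R κ).w z = 0 := Finset.prod_eq_zero (Finset.mem_univ i) h0.symm
    rw [this] at h
    exact lt_irrefl _ h
  · exact h0

theorem cop_ex1 (R : Law Ω) (i : κ) (f : Ω → ℝ) :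
    (cop R κ).ex (fun z => f (z i)) = R.ex f := by
  have h := cop_ex_prod R (κ := κ) (fun k ω => if k = i then f ω else 1)
  have e1 : (fun z : κ → Ω => ∏ k, if k = i then f (z k) else 1) = fun z => f (z i) := by
    funext z
    rw [Finset.prod_ite_eq']
    simp
  have e2 : ∏ k : κ, R.ex (fun ω => if k = i then f ω else 1) = R.ex f := by
    rw [Finset.prod_eq_single i]
    · simp
    · intro k _ hk
      simp only [if_neg hk]
      exact R.ex_const 1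
    · intro hk
      exact absurd (Finset.mem_univ i) hk
  rw [e1, e2] at h
  exact h

theorem cop_ex2 (R : Law Ω) {i j : κ} (hij : i ≠ j) (f : Ω → Ω → ℝ) :
    (cop R κ).ex (fun z => f (z i) (z j)) = R.ex (fun a => R.ex (fun b => f a b)) := by
  classical
  have e1 : ∀ z : κ → Ω, f (z i) (z j) = ∑ a, f a (z j) * (if z i = a then 1 else 0) := by
    intro z
    rw [Finset.sum_eq_single (z i)]
    · simp
    · intro b _ hb
      rw [if_neg (Ne.symm hb), mul_zero]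
    · intro h
      exact absurd (Finset.mem_univ _) h
  have e2 : ∀ a, (cop R κ).ex (fun z => f a (z j) * (if z i = a then 1 else 0)) =
      R.w a * R.ex (fun b => f a b) := by
    intro a
    have h := cop_ex_prod R (κ := κ)
      (fun k ω => (if k = j then f a ω else 1) * (if k = i then (if ω = a then 1 else 0) else 1))
    have h1 : (fun z : κ → Ω => ∏ k, ((if k = j then f a (z k) else 1) *
        (if k = i then (if z k = a then (1 : ℝ) else 0) else 1))) =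
        fun z => f a (z j) * (if z i = a then 1 else 0) := by
      funext z
      rw [Finset.prod_mul_distrib, Finset.prod_ite_eq', Finset.prod_ite_eq']
      simp
    rw [h1] at h
    rw [h]
    have h2 : ∀ k : κ, R.ex (fun ω => (if k = j then f a ω else 1) *
        (if k = i then (if ω = a then (1 : ℝ) else 0) else 1)) =
        (if k = j then R.ex (fun b => f a b) else 1) * (if k = i then R.w a else 1) := by
      intro k
      by_cases h3 : k = j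
      · have h4 : k ≠ i := fun h4 => hij (h4.symm.trans h3)
        simp [h3, hij.symm]
      · by_cases h4 : k = i
        · have : R.ex (fun ω => if ω = a then (1 : ℝ) else 0) = R.w a := by
            unfold Law.ex
            rw [Finset.sum_eq_single a]
            · simp
            · intro b _ hb
              simp [hb]
            · intro h
              exact absurd (Finset.mem_univ _) h
          simp [h4, hij, this]
        · simp only [if_neg h3, if_neg h4, mul_one]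
          exact R.ex_const 1
    rw [Finset.prod_congr rfl fun k _ => h2 k, Finset.prod_mul_distrib, Finset.prod_ite_eq',
      Finset.prod_ite_eq']
    simp [mul_comm]
  have e3 : (cop R κ).ex (fun z => f (z i) (z j)) =
      ∑ a, (cop R κ).ex (fun z => f a (z j) * (if z i = a then 1 else 0)) := by
    unfold Law.ex
    rw [Finset.sum_comm]
    refine Finset.sum_congr rfl fun z _ => ?_
    dsimp only
    rw [e1 z, Finset.mul_sum]
  rw [e3, Finset.sum_congr rfl fun a _ => e2 a]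
  rfl

end copies

/-! ### the displacement produced by the chain -/

theorem chain_trG (Q Q₁ : Law Ω) (W : Ω → S) (E : Ω → Z) (e' : Ω → X) (x x' : X)
    (pi be : Ω → ι → ℝ) (Fx : X → ι → ℝ) (c : ι → ℝ)
    (h1 : ∀ a b, 0 < Q.w a → 0 < Q.w b → E a = E b → ∀ i, |pi a i - pi b i| ≤ c i)
    (h1' : ∀ a b, 0 < Q₁.w a → 0 < Q₁.w b → E a = E b → ∀ i, |be a i - be b i| ≤ c i)
    (h2 : ∀ a b, 0 < Q.w a → 0 < Q₁.w b → W a = W b →
      ∀ i, |be b i - pi a i - Fx (e' a) i| ≤ c i) :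
    Tr Q pi (fun i => Fx x i - Fx x' i) (fun i => 5 * c i) (erC Q Q₁ W E e' x x') := by
  refine (chain5 Q Q₁ W E e' x x').mono ?_ le_rfl
  rintro a b ⟨a₁, a₂, a₃, a₄, p0, p1, p2, p3, p4, p5, q1, q2, q3, q4, q5, q6, q7⟩ i
  have k1 := h1 a a₁ p0 p1 q1 i
  have k2 := h2 a₁ a₂ p1 p2 q2 i
  have k3 := h1' a₂ a₃ p2 p3 q3 i
  have k4 := h2 a₄ a₃ p4 p3 q4.symm i
  have k5 := h1 a₄ b p4 p5 q5 i
  rw [q6] at k2
  rw [q7] at k4
  have e1 : pi b i - pi a i - (Fx x i - Fx x' i) =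
      -(pi a₄ i - pi b i) + (-(be a₃ i - pi a₄ i - Fx x' i)) + (-(be a₂ i - be a₃ i)) +
        (be a₂ i - pi a₁ i - Fx x i) + (-(pi a i - pi a₁ i)) := by ring
  rw [e1]
  refine (abs_add_le _ _).trans ?_
  have l1 := abs_add_le (-(pi a₄ i - pi b i) + (-(be a₃ i - pi a₄ i - Fx x' i)) +
    (-(be a₂ i - be a₃ i))) (be a₂ i - pi a₁ i - Fx x i)
  have l2 := abs_add_le (-(pi a₄ i - pi b i) + (-(be a₃ i - pi a₄ i - Fx x' i)))
    (-(be a₂ i - be a₃ i))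
  have l3 := abs_add_le (-(pi a₄ i - pi b i)) (-(be a₃ i - pi a₄ i - Fx x' i))
  rw [abs_neg] at l2 l3 ⊢
  rw [abs_neg] at l3
  linarith

/-! ### the M-step -/

section main

variable (P : Law Ω) (D : Ω → U) (Θ : Ω → V) (W : Ω → S) (E : Ω → Z) (e : U → S → X)
    (pi : Ω → ι → ℝ) (be : V → Ω → ι → ℝ) (F : U → V → V → X → ι → ℝ) (c : ι → ℝ)

/-- the hypotheses on the exact positions -/
structure GeoG : Prop where
  h1 : ∀ a b, 0 < P.w a → 0 < P.w b → D a = D b → Θ a = Θ b → E a = E b →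
    ∀ i, |pi a i - pi b i| ≤ c i
  h1' : ∀ o a b, 0 < P.w o → 0 < P.w a → 0 < P.w b → D o = D a → D a = D b → Θ a = Θ b →
    E a = E b → ∀ i, |be (Θ o) a i - be (Θ o) b i| ≤ c i
  h2 : ∀ a b, 0 < P.w a → 0 < P.w b → D a = D b → W a = W b →
    ∀ i, |be (Θ a) b i - pi a i - F (D a) (Θ a) (Θ b) (e (D a) (W a)) i| ≤ c i

variable {κ₂ κ₃ : Type} [Fintype κ₂] [DecidableEq κ₂] [Fintype κ₃] [DecidableEq κ₃]

/-- the average of the weight over independent copies given `D = D ω` -/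
noncomputable def avG (χ : U → V → (κ₂ → V) → (κ₃ → X) → ℝ) (ω : Ω) : ℝ :=
  (cop (P.cond D (D ω)) κ₂).ex fun z => (cop (P.cond D (D ω)) κ₃).ex fun y =>
    χ (D ω) (Θ ω) (fun i => Θ (z i)) (fun j => e (D ω) (W (y j)))

theorem avG_mem (χ : U → V → (κ₂ → V) → (κ₃ → X) → ℝ) (hχ0 : ∀ d θ θs xs, 0 ≤ χ d θ θs xs)
    (hχ1 : ∀ d θ θs xs, χ d θ θs xs ≤ 1) (ω : Ω) :
    0 ≤ avG P D Θ W e χ ω ∧ avG P D Θ W e χ ω ≤ 1 := by
  unfold avG
  constructor
  · exact Law.ex_nonneg _ fun z _ => Law.ex_nonneg _ fun y _ => hχ0 _ _ _ _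
  · have : (cop (P.cond D (D ω)) κ₂).ex (fun z => (cop (P.cond D (D ω)) κ₃).ex fun y =>
        χ (D ω) (Θ ω) (fun i => Θ (z i)) (fun j => e (D ω) (W (y j)))) ≤
        (cop (P.cond D (D ω)) κ₂).ex (fun _ => (cop (P.cond D (D ω)) κ₃).ex fun _ => 1) :=
      Law.ex_mono _ fun z _ => Law.ex_mono _ fun y _ => hχ1 _ _ _ _
    refine this.trans (le_of_eq ?_)
    simp only [Law.ex_const]

/-- the pointwise form: average weight `avG`, average error `er` -/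
theorem mstepG_pt (geo : GeoG P D Θ W E e pi be F c)
    (A : Finset (κ₂ × κ₃ × κ₃)) (hA : ∀ p ∈ A, p.2.1 ≠ p.2.2)
    (χ : U → V → (κ₂ → V) → (κ₃ → X) → ℝ) (hχ0 : ∀ d θ θs xs, 0 ≤ χ d θ θs xs)
    (hχ1 : ∀ d θ θs xs, χ d θ θs xs ≤ 1)
    (fine : U → V → (ι → ℝ) → F') (coarse : U → V → (ι → ℝ) → G) (Φ N : ℝ) (hN : 0 ≤ N)
    (hsat : ∀ d θ θs xs, 0 < χ d θ θs xs → ∀ (Q : Law Ω) (Y : Ω → ι → ℝ)
      (ε : κ₂ × κ₃ × κ₃ → ℝ), (∀ p, 0 ≤ ε p) →
      (∀ p ∈ A, Tr Q Y (fun i => F d θ (θs p.1) (xs p.2.1) i - F d θ (θs p.1) (xs p.2.2) i)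
        (fun i => 5 * c i) (ε p)) →
      Φ - N * ∑ p ∈ A, ε p ≤ hc Q (fun ω => fine d θ (Y ω)) (fun ω => coarse d θ (Y ω))) :
    ∃ er : Ω → ℝ, (∀ ω, 0 ≤ er ω) ∧
      P.ex er ≤ A.card * (8 * Real.sqrt (mi P (fun ω => e (D ω) (W ω)) E (fun ω => (D ω, Θ ω))) +
        64 * Real.sqrt (mi P Θ W D)) ∧
      ∀ ω, 0 < P.w ω →
        avG P D Θ W e χ ω * Φ - N * er ω ≤ avG P D Θ W e χ ω *
        hc (P.cond (fun ω => (D ω, Θ ω)) (D ω, Θ ω)) (fun ω => fine (D ω) (Θ ω) (pi ω))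
          (fun ω => coarse (D ω) (Θ ω) (pi ω)) := by
  classical
  -- abbreviations
  let Dt : Ω → U × V := fun ω => (D ω, Θ ω)
  let J : Ω → ℝ := fun ω => il (P.cond Dt (Dt ω)) (fun ω' => e (D ω) (W ω')) E
  let K : Ω → ℝ := fun ω => dl (P.cond Dt (Dt ω)) W (P.cond D (D ω)) W
  have hJ0 : ∀ ω, 0 ≤ J ω := fun ω => il_nonneg _ _ _
  have hK0 : ∀ ω, 0 ≤ K ω := fun ω => dl_nonneg _ _ _ _
  have hDt : ∀ ω, 0 < P.w ω → ∀ ω', 0 < (P.cond Dt (Dt ω)).w ω' →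
      D ω' = D ω ∧ Θ ω' = Θ ω ∧ 0 < P.w ω' := fun ω hω ω' h' => by
    have h1 := cond_supp P Dt (P.pr_pos Dt hω) h'
    exact ⟨(Prod.mk.inj h1.1).1, (Prod.mk.inj h1.1).2, h1.2⟩
  have hJ : P.ex J ≤ 4 * Real.sqrt (mi P (fun ω => e (D ω) (W ω)) E (fun ω => (D ω, Θ ω))) := by
    refine le_trans (le_of_eq ?_) (pin_il P (fun ω => e (D ω) (W ω)) E Dt)
    refine P.ex_congr fun ω hω => ?_
    simp only [J]
    rw [il_eq_ex, il_eq_ex]
    refine Law.ex_congr _ fun ω' h' => ?_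
    have hD' := (hDt ω hω ω' h').1
    rw [hD']
    refine dl_pr_congr _ _ _ _ _ _ _ _ (fun y => ?_) fun _ => rfl
    have q1 : 0 < (P.cond Dt (Dt ω)).pr (fun a => e (D ω) (W a)) (e (D ω) (W ω')) :=
      Law.pr_pos _ (fun a => e (D ω) (W a)) h'
    have q2 : 0 < (P.cond Dt (Dt ω)).pr (fun a => e (D a) (W a)) (e (D ω) (W ω')) := by
      have := Law.pr_pos _ (fun a => e (D a) (W a)) h'
      rwa [hD'] at this
    rw [Law.cond_pr _ _ _ q1, Law.cond_pr _ _ _ q2]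
    congr 1
    · refine pr_congr _ (fun a ha => ?_) _
      rw [(hDt ω hω a ha).1]
    · refine pr_congr _ (fun a ha => ?_) _
      rw [(hDt ω hω a ha).1]
  have hK : P.ex K ≤ 4 * Real.sqrt (mi P Θ W D) := pin_dl P Θ W D
  have hJ2 : P.ex (fun ω => (P.cond D (D ω)).ex J) = P.ex J := ex_cond P D J
  have hK2 : P.ex (fun ω => (P.cond D (D ω)).ex K) = P.ex K := ex_cond P D K
  have hB0 : ∀ ω, 0 ≤ J ω + (P.cond D (D ω)).ex J + 8 * K ω + 8 * (P.cond D (D ω)).ex K := by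
    intro ω
    have a1 := hJ0 ω
    have a2 := hK0 ω
    have a3 : 0 ≤ (P.cond D (D ω)).ex J := Law.ex_nonneg _ fun ω' _ => hJ0 ω'
    have a4 : 0 ≤ (P.cond D (D ω)).ex K := Law.ex_nonneg _ fun ω' _ => hK0 ω'
    positivity
  refine ⟨fun ω => A.card *
    (J ω + (P.cond D (D ω)).ex J + 8 * K ω + 8 * (P.cond D (D ω)).ex K),
    fun ω => mul_nonneg (Nat.cast_nonneg _) (hB0 ω), ?_, ?_⟩
  · rw [P.ex_const_mul]
    refine mul_le_mul_of_nonneg_left ?_ (Nat.cast_nonneg _)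
    rw [P.ex_add, P.ex_add, P.ex_add, P.ex_const_mul, P.ex_const_mul, hJ2, hK2]
    linarith
  -- the pointwise inequality
  intro ω hω
  set R := P.cond D (D ω) with hR
  set Q := P.cond Dt (Dt ω) with hQ
  have hRs : ∀ ω', 0 < R.w ω' → D ω' = D ω ∧ 0 < P.w ω' := fun ω' h' =>
    cond_supp P D (P.pr_pos D hω) h'
  have hQs : ∀ ω', 0 < Q.w ω' → D ω' = D ω ∧ Θ ω' = Θ ω ∧ 0 < P.w ω' := hDt ω hω
  have hhc : hc Q (fun ω => fine (D ω) (Θ ω) (pi ω)) (fun ω => coarse (D ω) (Θ ω) (pi ω)) =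
      hc Q (fun ω' => fine (D ω) (Θ ω) (pi ω')) (fun ω' => coarse (D ω) (Θ ω) (pi ω')) := by
    refine hc_congr_supp (fun ω' h' => ?_) fun ω' h' => ?_
    · rw [(hQs ω' h').1, (hQs ω' h').2.1]
    · rw [(hQs ω' h').1, (hQs ω' h').2.1]
  rw [hhc]
  set H := hc Q (fun ω' => fine (D ω) (Θ ω) (pi ω')) (fun ω' => coarse (D ω) (Θ ω) (pi ω'))
    with hH
  -- the error of one translation
  let er : Ω → Ω → Ω → ℝ := fun ω₂ ω₄ ω₅ =>
    erC Q (P.cond Dt (Dt ω₂)) W E (fun a => e (D ω) (W a)) (e (D ω) (W ω₄)) (e (D ω) (W ω₅))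
  have her0 : ∀ ω₂ ω₄ ω₅, 0 ≤ er ω₂ ω₄ ω₅ := fun _ _ _ => erC_nonneg _ _ _ _ _ _ _
  have htr : ∀ ω₂ ω₄ ω₅, 0 < R.w ω₂ →
      Tr Q pi (fun i => F (D ω) (Θ ω) (Θ ω₂) (e (D ω) (W ω₄)) i -
        F (D ω) (Θ ω) (Θ ω₂) (e (D ω) (W ω₅)) i) (fun i => 5 * c i) (er ω₂ ω₄ ω₅) := by
    intro ω₂ ω₄ ω₅ hω₂
    obtain ⟨hD2, hP2⟩ := hRs ω₂ hω₂
    have hQ1s := hDt ω₂ hP2
    refine chain_trG Q (P.cond Dt (Dt ω₂)) W E (fun a => e (D ω) (W a)) _ _ pi (be (Θ ω))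
      (F (D ω) (Θ ω) (Θ ω₂)) c ?_ ?_ ?_
    · intro a b ha hb hE
      obtain ⟨u1, u2, u3⟩ := hQs a ha
      obtain ⟨v1, v2, v3⟩ := hQs b hb
      exact geo.h1 a b u3 v3 (u1.trans v1.symm) (u2.trans v2.symm) hE
    · intro a b ha hb hE
      obtain ⟨u1, u2, u3⟩ := hQ1s a ha
      obtain ⟨v1, v2, v3⟩ := hQ1s b hb
      exact geo.h1' ω a b hω u3 v3 ((u1.trans hD2).symm) (u1.trans v1.symm) (u2.trans v2.symm) hE
    · intro a b ha hb hW i
      obtain ⟨u1, u2, u3⟩ := hQs a ha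
      obtain ⟨v1, v2, v3⟩ := hQ1s b hb
      have := geo.h2 a b u3 v3 (u1.trans (v1.trans hD2).symm) hW i
      rw [u1, u2, v2] at this
      exact this
  have hpt : ∀ (z : κ₂ → Ω) (y : κ₃ → Ω), 0 < (cop R κ₂).w z →
      χ (D ω) (Θ ω) (fun i => Θ (z i)) (fun j => e (D ω) (W (y j))) * Φ -
        N * ∑ p ∈ A, er (z p.1) (y p.2.1) (y p.2.2) ≤
      χ (D ω) (Θ ω) (fun i => Θ (z i)) (fun j => e (D ω) (W (y j))) * H := by
    intro z y hz
    set x := χ (D ω) (Θ ω) (fun i => Θ (z i)) (fun j => e (D ω) (W (y j))) with hx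
    have hx0 : 0 ≤ x := hχ0 _ _ _ _
    have hx1 : x ≤ 1 := hχ1 _ _ _ _
    have hS0 : 0 ≤ ∑ p ∈ A, er (z p.1) (y p.2.1) (y p.2.2) :=
      Finset.sum_nonneg fun p _ => her0 _ _ _
    have hE0 : 0 ≤ N * ∑ p ∈ A, er (z p.1) (y p.2.1) (y p.2.2) := mul_nonneg hN hS0
    rcases hx0.eq_or_lt with h0 | h0
    · rw [← h0]
      linarith
    · have h8 := hsat _ _ _ _ h0 Q pi (fun p => er (z p.1) (y p.2.1) (y p.2.2))
        (fun p => her0 _ _ _) (fun p _ => htr (z p.1) (y p.2.1) (y p.2.2) (cop_supp hz p.1))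
      have h9 := mul_le_mul_of_nonneg_left h8 hx0
      have h10 : x * (N * ∑ p ∈ A, er (z p.1) (y p.2.1) (y p.2.2)) ≤
          N * ∑ p ∈ A, er (z p.1) (y p.2.1) (y p.2.2) := mul_le_of_le_one_left hE0 hx1
      rw [mul_sub] at h9
      linarith
  -- average over the copies
  let av : ((κ₂ → Ω) → (κ₃ → Ω) → ℝ) → ℝ := fun f =>
    (cop R κ₂).ex (fun z => (cop R κ₃).ex (fun y => f z y))
  have av_mono : ∀ f f' : (κ₂ → Ω) → (κ₃ → Ω) → ℝ, (∀ z y, 0 < (cop R κ₂).w z →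
      f z y ≤ f' z y) → av f ≤ av f' := fun f f' hff =>
    Law.ex_mono _ fun z hz => Law.ex_mono _ fun y _ => hff z y hz
  let X4 : (κ₂ → Ω) → (κ₃ → Ω) → ℝ := fun z y =>
    χ (D ω) (Θ ω) (fun i => Θ (z i)) (fun j => e (D ω) (W (y j)))
  have e1 : av (fun z y => X4 z y * Φ - N * ∑ p ∈ A, er (z p.1) (y p.2.1) (y p.2.2)) ≤
      av (fun z y => X4 z y * H) := av_mono _ _ hpt
  have e2 : av (fun z y => X4 z y * H) = av X4 * H := by
    simp only [av]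
    simp only [mul_comm _ H, Law.ex_const_mul]
  have e5 : ∀ p ∈ A, av (fun z y => er (z p.1) (y p.2.1) (y p.2.2)) =
      R.ex (fun ω₂ => R.ex (fun ω₄ => R.ex (fun ω₅ => er ω₂ ω₄ ω₅))) := by
    intro p hp
    simp only [av]
    have h1 : ∀ z : κ₂ → Ω, (cop R κ₃).ex (fun y => er (z p.1) (y p.2.1) (y p.2.2)) =
        R.ex (fun ω₄ => R.ex (fun ω₅ => er (z p.1) ω₄ ω₅)) := fun z =>
      cop_ex2 R (hA p hp) (fun a b => er (z p.1) a b)
    simp only [h1]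
    exact cop_ex1 R p.1 (fun ω₂ => R.ex (fun ω₄ => R.ex (fun ω₅ => er ω₂ ω₄ ω₅)))
  have e3 : av (fun z y => X4 z y * Φ - N * ∑ p ∈ A, er (z p.1) (y p.2.1) (y p.2.2)) =
      av X4 * Φ - N * (A.card * R.ex (fun ω₂ => R.ex (fun ω₄ => R.ex (fun ω₅ =>
        er ω₂ ω₄ ω₅)))) := by
    have h1 : av (fun z y => ∑ p ∈ A, er (z p.1) (y p.2.1) (y p.2.2)) =
        ∑ p ∈ A, av (fun z y => er (z p.1) (y p.2.1) (y p.2.2)) := by
      have hs : ∀ (L : Law (κ₃ → Ω)) (f : κ₂ × κ₃ × κ₃ → (κ₃ → Ω) → ℝ),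
          L.ex (fun y => ∑ p ∈ A, f p y) = ∑ p ∈ A, L.ex (f p) := by
        intro L f
        unfold Law.ex
        rw [Finset.sum_comm]
        exact Finset.sum_congr rfl fun y _ => by rw [Finset.mul_sum]
      have hs' : ∀ (L : Law (κ₂ → Ω)) (f : κ₂ × κ₃ × κ₃ → (κ₂ → Ω) → ℝ),
          L.ex (fun y => ∑ p ∈ A, f p y) = ∑ p ∈ A, L.ex (f p) := by
        intro L f
        unfold Law.ex
        rw [Finset.sum_comm]
        exact Finset.sum_congr rfl fun y _ => by rw [Finset.mul_sum]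
      simp only [av]
      rw [← hs']
      refine Law.ex_congr _ fun z _ => ?_
      exact hs _ (fun p y => er (z p.1) (y p.2.1) (y p.2.2))
    have h2 : av (fun z y => X4 z y * Φ - N * ∑ p ∈ A, er (z p.1) (y p.2.1) (y p.2.2)) =
        av X4 * Φ - N * av (fun z y => ∑ p ∈ A, er (z p.1) (y p.2.1) (y p.2.2)) := by
      simp only [av, Law.ex_sub, Law.ex_const_mul]
      congr 1
      simp only [mul_comm _ Φ, Law.ex_const_mul]
    rw [h2, h1, Finset.sum_congr rfl fun p hp => e5 p hp, Finset.sum_const, nsmul_eq_mul]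
  have e4 : R.ex (fun ω₂ => R.ex (fun ω₄ => R.ex (fun ω₅ => er ω₂ ω₄ ω₅))) ≤
      J ω + R.ex J + 8 * K ω + 8 * R.ex K := by
    have : R.ex (fun ω₂ => R.ex (fun ω₄ => R.ex (fun ω₅ => er ω₂ ω₄ ω₅))) ≤
        R.ex (fun ω₂ => J ω + J ω₂ + 8 * K ω + 8 * K ω₂) := by
      refine R.ex_mono fun ω₂ h2 => ?_
      obtain ⟨hD2, hP2⟩ := hRs ω₂ h2
      have h3 := chain5_err Q (P.cond Dt (Dt ω₂)) R W E (e (D ω))
      have h4 : J ω₂ = il (P.cond Dt (Dt ω₂)) (fun a => e (D ω) (W a)) E := by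
        simp only [J]
        rw [hD2]
      have h5 : K ω₂ = dl (P.cond Dt (Dt ω₂)) W R W := by
        simp only [K]
        rw [hD2]
      rw [h4, h5]
      exact h3
    simp only [R.ex_add, R.ex_const_mul, R.ex_const] at this
    exact this
  rw [e3, e2] at e1
  have e6 : N * (A.card * R.ex (fun ω₂ => R.ex (fun ω₄ => R.ex (fun ω₅ => er ω₂ ω₄ ω₅)))) ≤
      N * (A.card * (J ω + R.ex J + 8 * K ω + 8 * R.ex K)) :=
    mul_le_mul_of_nonneg_left (mul_le_mul_of_nonneg_left e4 (Nat.cast_nonneg _)) hN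
  have e7 : av X4 * Φ - N * (A.card * (J ω + R.ex J + 8 * K ω + 8 * R.ex K)) ≤ av X4 * H := by
    linarith
  exact e7

/-- **THE M-STEP with a general displacement**, averaged form -/
theorem mstepG (geo : GeoG P D Θ W E e pi be F c)
    (A : Finset (κ₂ × κ₃ × κ₃)) (hA : ∀ p ∈ A, p.2.1 ≠ p.2.2)
    (χ : U → V → (κ₂ → V) → (κ₃ → X) → ℝ) (hχ0 : ∀ d θ θs xs, 0 ≤ χ d θ θs xs)
    (hχ1 : ∀ d θ θs xs, χ d θ θs xs ≤ 1)
    (fine : U → V → (ι → ℝ) → F') (coarse : U → V → (ι → ℝ) → G) (Φ N : ℝ) (hN : 0 ≤ N)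
    (hsat : ∀ d θ θs xs, 0 < χ d θ θs xs → ∀ (Q : Law Ω) (Y : Ω → ι → ℝ)
      (ε : κ₂ × κ₃ × κ₃ → ℝ), (∀ p, 0 ≤ ε p) →
      (∀ p ∈ A, Tr Q Y (fun i => F d θ (θs p.1) (xs p.2.1) i - F d θ (θs p.1) (xs p.2.2) i)
        (fun i => 5 * c i) (ε p)) →
      Φ - N * ∑ p ∈ A, ε p ≤ hc Q (fun ω => fine d θ (Y ω)) (fun ω => coarse d θ (Y ω))) :
    P.ex (avG P D Θ W e χ) * Φ - N * (A.card *
      (8 * Real.sqrt (mi P (fun ω => e (D ω) (W ω)) E (fun ω => (D ω, Θ ω))) +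
        64 * Real.sqrt (mi P Θ W D))) ≤
    hc P (fun ω => fine (D ω) (Θ ω) (pi ω))
      (fun ω => (coarse (D ω) (Θ ω) (pi ω), (D ω, Θ ω))) := by
  obtain ⟨er, _, her, hpt⟩ := mstepG_pt P D Θ W E e pi be F c geo A hA χ hχ0 hχ1 fine coarse Φ N
    hN hsat
  rw [hc_cond_ex P _ _ (fun ω => (D ω, Θ ω))]
  have h1 := P.ex_mono (f := fun ω => avG P D Θ W e χ ω * Φ - N * er ω)
    (g := fun ω => hc (P.cond (fun ω => (D ω, Θ ω)) (D ω, Θ ω))
      (fun ω => fine (D ω) (Θ ω) (pi ω)) (fun ω => coarse (D ω) (Θ ω) (pi ω))) (by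
    intro ω hω
    refine (hpt ω hω).trans ?_
    exact mul_le_of_le_one_left (hc_nonneg _ _ _) (avG_mem P D Θ W e χ hχ0 hχ1 ω).2)
  refine le_trans ?_ h1
  rw [P.ex_sub, P.ex_const_mul]
  have h2 := mul_le_mul_of_nonneg_left her hN
  have e8 : P.ex (fun ω => avG P D Θ W e χ ω * Φ) = P.ex (avG P D Θ W e χ) * Φ := by
    rw [mul_comm _ Φ, ← P.ex_const_mul]
    exact P.ex_congr fun ω _ => by ring
  rw [e8]
  linarith

/-- **THE M-STEP**, robust form: if the average weight is at least `ρ` outside a set of probability `η` -/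
theorem mstepG_rob (geo : GeoG P D Θ W E e pi be F c)
    (A : Finset (κ₂ × κ₃ × κ₃)) (hA : ∀ p ∈ A, p.2.1 ≠ p.2.2)
    (χ : U → V → (κ₂ → V) → (κ₃ → X) → ℝ) (hχ0 : ∀ d θ θs xs, 0 ≤ χ d θ θs xs)
    (hχ1 : ∀ d θ θs xs, χ d θ θs xs ≤ 1)
    (fine : U → V → (ι → ℝ) → F') (coarse : U → V → (ι → ℝ) → G) (Φ N : ℝ) (hN : 0 ≤ N)
    (hΦ : 0 ≤ Φ)
    (hsat : ∀ d θ θs xs, 0 < χ d θ θs xs → ∀ (Q : Law Ω) (Y : Ω → ι → ℝ)
      (ε : κ₂ × κ₃ × κ₃ → ℝ), (∀ p, 0 ≤ ε p) →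
      (∀ p ∈ A, Tr Q Y (fun i => F d θ (θs p.1) (xs p.2.1) i - F d θ (θs p.1) (xs p.2.2) i)
        (fun i => 5 * c i) (ε p)) →
      Φ - N * ∑ p ∈ A, ε p ≤ hc Q (fun ω => fine d θ (Y ω)) (fun ω => coarse d θ (Y ω)))
    {ρ : ℝ} (hρ : 0 < ρ) (B : Ω → ℝ) (hB0 : ∀ ω, 0 ≤ B ω)
    (hB : ∀ ω, 0 < P.w ω → avG P D Θ W e χ ω < ρ → 1 ≤ B ω) :
    (1 - P.ex B) * Φ - N / ρ * (A.card *
      (8 * Real.sqrt (mi P (fun ω => e (D ω) (W ω)) E (fun ω => (D ω, Θ ω))) +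
        64 * Real.sqrt (mi P Θ W D))) ≤
    hc P (fun ω => fine (D ω) (Θ ω) (pi ω))
      (fun ω => (coarse (D ω) (Θ ω) (pi ω), (D ω, Θ ω))) := by
  obtain ⟨er, her0, her, hpt⟩ := mstepG_pt P D Θ W E e pi be F c geo A hA χ hχ0 hχ1 fine coarse Φ N
    hN hsat
  rw [hc_cond_ex P _ _ (fun ω => (D ω, Θ ω))]
  have hNρ : 0 ≤ N / ρ := div_nonneg hN hρ.le
  have h1 := P.ex_mono (f := fun ω => (1 - B ω) * Φ - N / ρ * er ω)
    (g := fun ω => hc (P.cond (fun ω => (D ω, Θ ω)) (D ω, Θ ω))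
      (fun ω => fine (D ω) (Θ ω) (pi ω)) (fun ω => coarse (D ω) (Θ ω) (pi ω))) (by
    intro ω hω
    have h0 := hpt ω hω
    have hhc := hc_nonneg (P.cond (fun ω => (D ω, Θ ω)) (D ω, Θ ω))
      (fun ω => fine (D ω) (Θ ω) (pi ω)) (fun ω => coarse (D ω) (Θ ω) (pi ω))
    set H := hc (P.cond (fun ω => (D ω, Θ ω)) (D ω, Θ ω))
      (fun ω => fine (D ω) (Θ ω) (pi ω)) (fun ω => coarse (D ω) (Θ ω) (pi ω))
    have hm := avG_mem P D Θ W e χ hχ0 hχ1 ω
    set v := avG P D Θ W e χ ω with hv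
    have hE := mul_nonneg hNρ (her0 ω)
    by_cases hlt : v < ρ
    · have h2 := hB ω hω hlt
      have h3 : (1 - B ω) * Φ ≤ 0 := mul_nonpos_of_nonpos_of_nonneg (by linarith) hΦ
      show (1 - B ω) * Φ - N / ρ * er ω ≤ H
      linarith
    · have hρv := not_lt.1 hlt
      have hv0 : 0 < v := hρ.trans_le hρv
      have h4 : Φ - H ≤ N / v * er ω := by
        rw [div_mul_eq_mul_div, le_div_iff₀ hv0]
        nlinarith
      have h5 : N / v * er ω ≤ N / ρ * er ω :=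
        mul_le_mul_of_nonneg_right (div_le_div_of_nonneg_left hN hρ hρv) (her0 ω)
      have h6 : 0 ≤ B ω * Φ := mul_nonneg (hB0 ω) hΦ
      show (1 - B ω) * Φ - N / ρ * er ω ≤ H
      nlinarith)
  refine le_trans ?_ h1
  rw [P.ex_sub, P.ex_const_mul]
  have h2 := mul_le_mul_of_nonneg_left her hNρ
  have e8 : P.ex (fun ω => (1 - B ω) * Φ) = (1 - P.ex B) * Φ := by
    have h3 : P.ex (fun ω => (1 - B ω) * Φ) = P.ex (fun ω => Φ * (1 - B ω)) :=
      P.ex_congr fun ω _ => by ring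
    rw [h3, P.ex_const_mul, P.ex_sub, P.ex_const]
    ring
  rw [e8]
  linarith

end main

end Vale.Agent.P106.TV
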