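import Vale.Agent.P106.TV.MStepG
import Vale.Agent.P106.TV.LatI

/-!
# P106 / TV : the M-step with a general displacement, with the lattice (helper875)

`disp F f d θ θs xs k i` = the `i`-th coordinate of the `k`-th displacement; `chiG` = 1 if all of them are
bounded by `1` and their determinant is at least `τ`.

* `mstepGL` : averaged form; `mstepGL_rob` : robust form.
-/

set_option autoImplicit false
set_option linter.unusedSectionVars false

namespace Vale.Agent.P106.TV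

open Finset Vale.Agent.P127 Vale.Agent.P127.Stk Vale.Agent.P127.U.Pin Vale.Agent.P127.TV

variable {Ω : Type} [Fintype Ω] {ι : Type} [Fintype ι] [DecidableEq ι] {S U V Z X : Type*}
  {κ₂ κ₃ : Type} [Fintype κ₂] [DecidableEq κ₂] [Fintype κ₃] [DecidableEq κ₃]

/-- the displacements -/
def disp (F : U → V → V → X → ι → ℝ) (f : ι → κ₂ × κ₃ × κ₃) (d : U) (θ : V) (θs : κ₂ → V)
    (xs : κ₃ → X) (k i : ι) : ℝ :=
  F d θ (θs (f k).1) (xs (f k).2.1) i - F d θ (θs (f k).1) (xs (f k).2.2) i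

open Classical in
/-- the weight -/
noncomputable def chiG (F : U → V → V → X → ι → ℝ) (f : ι → κ₂ × κ₃ × κ₃) (τ : ℝ) (d : U) (θ : V)
    (θs : κ₂ → V) (xs : κ₃ → X) : ℝ :=
  if (∀ k i, |disp F f d θ θs xs k i| ≤ 1) ∧ τ ≤ |Matrix.det (Matrix.of (disp F f d θ θs xs))|
  then 1 else 0

theorem chiG_nonneg (F : U → V → V → X → ι → ℝ) (f : ι → κ₂ × κ₃ × κ₃) (τ : ℝ) (d : U) (θ : V)
    (θs : κ₂ → V) (xs : κ₃ → X) : 0 ≤ chiG F f τ d θ θs xs := by
  unfold chiG; split_ifs <;> norm_num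

theorem chiG_le_one (F : U → V → V → X → ι → ℝ) (f : ι → κ₂ × κ₃ × κ₃) (τ : ℝ) (d : U) (θ : V)
    (θs : κ₂ → V) (xs : κ₃ → X) : chiG F f τ d θ θs xs ≤ 1 := by
  unfold chiG; split_ifs <;> norm_num

/-- the gain of the lattice -/
noncomputable def gainL (n : ℕ) (l L : ℝ) : ℝ := n * Real.log (L / l) - n * Real.log (3 * (2 * n + 3))

section main

variable (P : Law Ω) (D : Ω → U) (Θ : Ω → V) (W : Ω → S) (E : Ω → Z) (e : U → S → X)
    (pi : Ω → ι → ℝ) (be : V → Ω → ι → ℝ) (F : U → V → V → X → ι → ℝ)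

/-- the hypothesis `hsat` of the M-step -/
theorem sat_chiG (f : ι → κ₂ × κ₃ × κ₃) (hf : Function.Injective f) (τ l L ρ : ℝ) (R : ℕ)
    (hτ : 0 < τ) (hl : 1 ≤ l) (hlL : l ≤ L)
    (hR : 2 * Fintype.card ι * (Fintype.card ι).factorial * L ≤ R * τ) (hρ : 0 ≤ ρ)
    (hRρ : 5 * Fintype.card ι * R * ρ ≤ 1) (d : U) (θ : V) (θs : κ₂ → V) (xs : κ₃ → X)
    (hχ : 0 < chiG F f τ d θ θs xs) (Q : Law Ω) (Y : Ω → ι → ℝ) (ε : κ₂ × κ₃ × κ₃ → ℝ)
    (_hε : ∀ p, 0 ≤ ε p)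
    (h : ∀ p ∈ univ.image f, Tr Q Y (fun i => F d θ (θs p.1) (xs p.2.1) i -
      F d θ (θs p.1) (xs p.2.2) i) (fun _ => 5 * ρ) (ε p)) :
    gainL (Fintype.card ι) l L - R * (1 + Fintype.card ι * Real.log R) *
      ∑ p ∈ univ.image f, ε p ≤ hc Q (fun ω => celi l (Y ω)) (fun ω => celi L (Y ω)) := by
  unfold chiG at hχ
  split_ifs at hχ with hc
  swap
  · exact absurd hχ (lt_irrefl _)
  have h1 := lat_i Q Y (disp F f d θ θs xs) τ l L (5 * ρ) (fun k => ε (f k)) R hc.1 hτ hc.2 hl hlL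
    hR (by positivity) (by linarith) (fun k => h (f k) (mem_image_of_mem _ (mem_univ _)))
  rw [sum_image (fun a _ b _ hab => hf hab)]
  unfold gainL
  linarith

variable {P D Θ W E e pi be F}

/-- **M-STEP + LATTICE**, averaged form -/
theorem mstepGL {ρ : ℝ} (geo : GeoG P D Θ W E e pi be F (fun _ => ρ))
    (f : ι → κ₂ × κ₃ × κ₃) (hf : Function.Injective f) (hf' : ∀ k, (f k).2.1 ≠ (f k).2.2)
    (τ l L : ℝ) (R : ℕ) (hτ : 0 < τ) (hl : 1 ≤ l) (hlL : l ≤ L)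
    (hR : 2 * Fintype.card ι * (Fintype.card ι).factorial * L ≤ R * τ) (hρ : 0 ≤ ρ)
    (hRρ : 5 * Fintype.card ι * R * ρ ≤ 1) :
    P.ex (avG P D Θ W e (chiG F f τ)) * gainL (Fintype.card ι) l L -
      R * (1 + Fintype.card ι * Real.log R) * (Fintype.card ι *
      (8 * Real.sqrt (mi P (fun ω => e (D ω) (W ω)) E (fun ω => (D ω, Θ ω))) +
        64 * Real.sqrt (mi P Θ W D))) ≤
    hc P (fun ω => celi l (pi ω)) (fun ω => (celi L (pi ω), (D ω, Θ ω))) := by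
  have h := mstepG P D Θ W E e pi be F (fun _ => ρ) geo (univ.image f) (by
      intro p hp
      rw [mem_image] at hp
      obtain ⟨k, _, rfl⟩ := hp
      exact hf' k) (chiG F f τ) (chiG_nonneg F f τ) (chiG_le_one F f τ)
    (fun _ _ x => celi l x) (fun _ _ x => celi L x) (gainL (Fintype.card ι) l L)
    (R * (1 + Fintype.card ι * Real.log R))
    (mul_nonneg (Nat.cast_nonneg _) (by
      have := Real.log_natCast_nonneg R
      positivity))
    (fun d θ θs xs hχ Q Y ε hε hY => sat_chiG F f hf τ l L ρ R hτ hl hlL hR hρ hRρ d θ θs xs hχ Q Y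
      ε hε hY)
  rwa [card_image_of_injective _ hf, card_univ] at h

/-- **M-STEP + LATTICE**, robust form -/
theorem mstepGL_rob {ρ : ℝ} (geo : GeoG P D Θ W E e pi be F (fun _ => ρ))
    (f : ι → κ₂ × κ₃ × κ₃) (hf : Function.Injective f) (hf' : ∀ k, (f k).2.1 ≠ (f k).2.2)
    (τ l L : ℝ) (R : ℕ) (hτ : 0 < τ) (hl : 1 ≤ l) (hlL : l ≤ L)
    (hR : 2 * Fintype.card ι * (Fintype.card ι).factorial * L ≤ R * τ) (hρ : 0 ≤ ρ)
    (hRρ : 5 * Fintype.card ι * R * ρ ≤ 1) (hg : 0 ≤ gainL (Fintype.card ι) l L)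
    {c : ℝ} (hc : 0 < c) (B : Ω → ℝ) (hB0 : ∀ ω, 0 ≤ B ω)
    (hB : ∀ ω, 0 < P.w ω → avG P D Θ W e (chiG F f τ) ω < c → 1 ≤ B ω) :
    (1 - P.ex B) * gainL (Fintype.card ι) l L -
      R * (1 + Fintype.card ι * Real.log R) / c * (Fintype.card ι *
      (8 * Real.sqrt (mi P (fun ω => e (D ω) (W ω)) E (fun ω => (D ω, Θ ω))) +
        64 * Real.sqrt (mi P Θ W D))) ≤
    Vale.Agent.P127.Stk.hc P (fun ω => celi l (pi ω)) (fun ω => (celi L (pi ω), (D ω, Θ ω))) := by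
  have h := mstepG_rob P D Θ W E e pi be F (fun _ => ρ) geo (univ.image f) (by
      intro p hp
      rw [mem_image] at hp
      obtain ⟨k, _, rfl⟩ := hp
      exact hf' k) (chiG F f τ) (chiG_nonneg F f τ) (chiG_le_one F f τ)
    (fun _ _ x => celi l x) (fun _ _ x => celi L x) (gainL (Fintype.card ι) l L)
    (R * (1 + Fintype.card ι * Real.log R))
    (mul_nonneg (Nat.cast_nonneg _) (by
      have := Real.log_natCast_nonneg R
      positivity)) hg
    (fun d θ θs xs hχ Q Y ε hε hY => sat_chiG F f hf τ l L ρ R hτ hl hlL hR hρ hRρ d θ θs xs hχ Q Y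
      ε hε hY) hc B hB0 hB
  rwa [card_image_of_injective _ hf, card_univ] at h

end main

end Vale.Agent.P106.TV
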